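import Crest.Agent.X262.Bl53.Cls
import Crest.Agent.X262.End36.Main
import Crest.Agent.X262.Rc72.Main
import Crest.Agent.X262.Gwb.Mst
import Crest.Agent.X262.Kill52.Kun
import Crest.Agent.X262.Form88.Dom
import Crest.Agent.X277.Unf.Main
import Crest.Agent.X262.FG.Bert
import Crest.Agent.X262.FG.Up0
import Crest.Agent.X262.Rul.NoPG
import Crest.Agent.X262.Ends.Defs
import Crest.Agent.X262.Node22.Alg
import Crest.Agent.R273.FG_259
import Crest.Agent.X277.Res.OutDefs
import Crest.Agent.X262.Gwb59.Ax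
import Crest.Agent.X262.Blow.Exc
import Crest.Agent.X262.Bl53.Defs
import Crest.Agent.X262.Ms2.Defs
import Crest.Agent.X262.Ms2.Pn
import Crest.Agent.X277.Cns.Jac
import Crest.Agent.X262.Tree87.P2
import Crest.Agent.X262.Tree87.T4
import Crest.Agent.X262.Syz.Eqn3
import Crest.Agent.R023.AxA_952
import Crest.Agent.X262.Bub96.Tree
import Crest.Agent.X262.Bub96.NormB
import Crest.Agent.X262.Ends.Rees
import Crest.Agent.X262.Geo.Val
import Crest.Agent.X277.AN.G1Gaga

-- ▼ part X262/Bl53/Main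
section

/-!
# Row 262, (BL) + (PR) (helper53): the embedding of the blow-up, the theorem

* `reg2`, `emb2`, `nt2`, `cod2` : the two tuples embed the blow-up;
* `exists_dat`                  : the data of `Bl53/Cls`;
* `blStmt_of`                   : `Gwb.BlStmt`.
-/

set_option autoImplicit false

noncomputable section

namespace Crest.Agent.X262.Bl53

open Crest.Agent.X277 Crest.Agent.X277.Lef Crest.Agent.X277.AN.G1 Crest.Agent.X277.BD
open Crest.Agent.X277.BD.Br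
open Crest.Agent.X277.Res.Out (Coords)
open Crest.Agent.X262.Coh Crest.Agent.X262.Gwb Crest.Agent.X262.Chn Crest.Agent.X262.Ult
open Crest.Agent.X262.Blow
open MvPolynomial
open scoped KaehlerDifferential

variable {K : Type} [Field K] [Algebra ℂ K]

section Two

variable {κ : Type} [Field κ] [Algebra ℂ κ] {P : PModel ℂ K} {q : Plc K κ} (h : SmC P q 2 2)
  (g : Gens P q)

theorem at_y' {x : Pts (g.bl h)} {i : Fin (P.N + 1)} (hi : (g.r h).map x ∈ pat P i) :
    At (mxf ℂ P.y) x (P.y i) := at_mxf (P.y_ne i) fun l => (Gens.r_dom x).le (y_mem hi l)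

theorem reg2 : ∀ j, (tup2 g j).Reg (sv (g.bl h))
  | false => ⟨⟨(0 : Fin (P.N + 1)), P.y_ne 0⟩, fun x =>
      (exists_pat ((g.r h).map x)).elim fun _ hi => ⟨_, at_y' h g hi⟩⟩
  | true => ⟨⟨(0 : Fin (g.M + 1)), g.ne 0⟩, fun x =>
      (Gens.exists_gen (G := g) (h := h) x).elim fun j hj => ⟨_, at_mxf (g.ne j) hj⟩⟩

theorem emb2 : End36.IsE (Y := sv (g.bl h)) (tup2 g) := by
  intro x f hf
  obtain ⟨i, hi⟩ := exists_pat ((g.r h).map x)
  obtain ⟨j, hj⟩ := Gens.exists_gen x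
  have h1 : chB (P.A i) g.f j ≤ Algebra.adjoin ℂ (crdAt (Y := sv (g.bl h)) (tup2 g) x) := by
    refine chB_le (Algebra.adjoin_mono ?_) fun k =>
      Algebra.subset_adjoin ⟨true, k, j, at_mxf (g.ne j) hj, rfl⟩
    rintro _ ⟨l, rfl⟩
    exact ⟨false, l, i, at_y' h g hi, rfl⟩
  obtain ⟨a, ha, c, hc, h2⟩ := (Gens.of_gen hi hj).loc f hf
  exact ⟨a, h1 ha, c, h1 hc, h2⟩

include h in
theorem nt2 : ∀ j, Nontrivial (tup2 g j).io := by
  obtain ⟨x, hx⟩ := h.ne
  obtain ⟨s, w, ha⟩ := h.crd x hx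
  obtain ⟨i, hi⟩ := exists_pat x
  rintro (_ | _)
  · refine not_subsingleton_iff_nontrivial.1 fun h0 : Subsingleton (Fin (P.N + 1)) => ?_
    have h1 : P.A i ≤ ⊥ := Algebra.adjoin_le (by
      rintro _ ⟨j, rfl⟩
      obtain rfl := Subsingleton.elim i j
      change P.y i / P.y i ∈ (⊥ : Subalgebra ℂ K)
      rw [div_self (P.y_ne i)]
      exact one_mem _)
    obtain ⟨a, h2, c, h3, h4, h5⟩ := (mem_lp_iff hi).1 (ha.s_mem 0)
    obtain ⟨a, rfl⟩ := Algebra.mem_bot.1 (h1 h2)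
    have h6 := congrArg (lp x).v h5
    rw [LP.v_mul _ (ha.s_mem 0) (A_le hi h3), LP.v_alg, show (lp x).v (s 0) = 0 from ha.ev_s 0,
      zero_mul] at h6
    rw [← h6, map_zero] at h5
    exact mul_ne_zero (ha.s_ne 0) (LP.ne_zero_of_ne h4) h5
  · refine not_subsingleton_iff_nontrivial.1 fun h0 : Subsingleton (Fin (g.M + 1)) => ?_
    have h1 : ∀ c : ℂ, ev (s 1 / s 0) x = c := fun c => by
      obtain ⟨x', rfl, -, h2⟩ := Gens.exists_dir (G := g) (h := h) ha (l := 0) (ξ := ![1, c]) rfl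
      obtain ⟨j, hj⟩ := Gens.exists_of x' hi
      have h3 := eq_of_of hj (Gens.r_dom x') (chB_le (A_le hi) fun k => by
        rw [Subsingleton.elim k j, div_self (g.ne j)]
        exact one_mem _)
      exact (congrArg (fun L : LP K => L.v (s 1 / s 0)) h3).trans (h2 1)
    exact zero_ne_one ((h1 0).symm.trans (h1 1))

theorem wh_rename {J : Type} [DecidableEq J] {io : J → Type} (j : J) {p : MvPolynomial (io j) ℂ}
    {k : ℕ} (hp : p.IsHomogeneous k) : (rename (Sigma.mk j) p).IsWeightedHomogeneous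
      (fun v : Σ j, io j => (Pi.single v.1 1 : J → ℕ)) (Pi.single j k) := by
  intro d hd
  obtain ⟨d, rfl, hd'⟩ := coeff_rename_ne_zero _ p d hd
  rw [← hp hd', Finsupp.weight_apply, Finsupp.weight_apply,
    Finsupp.sum_mapDomain_index (by simp) (by simp [add_smul])]
  funext j'
  rcases eq_or_ne j' j with rfl | hj
  · simp [Finsupp.sum]
  · simp [Finsupp.sum, hj]

theorem exists_form {a : K} (ha : a ∈ P.A 0) : ∃ (k : ℕ) (p : MvPolynomial (Fin (P.N + 1)) ℂ),
    p.IsHomogeneous k ∧ aeval P.y p = P.y 0 ^ k * a := by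
  obtain ⟨p, rfl⟩ : a ∈ (aeval (R := ℂ) fun j => P.y j / P.y 0).range := by
    rw [← Algebra.adjoin_range_eq_range_aeval]
    exact ha
  obtain ⟨k, H, h1, r, h2⟩ := exists_homog 0 p
  refine ⟨k, H, h1, ?_⟩
  have h3 := congrArg (aeval (R := ℂ) fun j => P.y j / P.y 0) h2
  rw [map_sub, map_mul, map_sub, aeval_X, map_one, div_self (P.y_ne 0), sub_self, zero_mul,
    sub_eq_zero] at h3
  have h4 := Rc72.aeval_mul h1 (P.y 0) fun j => P.y j / P.y 0
  simp only [mul_div_cancel₀ _ (P.y_ne 0)] at h4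
  rw [h4, h3]
  rfl

include h in
theorem cod2 : ∃ (r : MvPolynomial (Σ j, (tup2 g j).io) ℂ) (k : Bool → ℕ), r ≠ 0 ∧
    r.IsWeightedHomogeneous (fun v => (Pi.single v.1 1 : Bool → ℕ)) k ∧
    aeval (fun v : Σ j, (tup2 g j).io => (tup2 g v.1).y v.2) r = 0 := by
  obtain ⟨(a : Fin (g.M + 1)), (b : Fin (g.M + 1)), hab⟩ := nt2 h g true
  obtain ⟨k, p, p1, p2⟩ := exists_form (g.mem a 0)
  obtain ⟨k', p', p1', p2'⟩ := exists_form (g.mem b 0)
  have h0 := P.y_ne 0
  refine ⟨X ⟨true, a⟩ * rename (Sigma.mk false) (p' * X (0 : Fin (P.N + 1)) ^ k) -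
    X ⟨true, b⟩ * rename (Sigma.mk false) (p * X (0 : Fin (P.N + 1)) ^ k'),
    Pi.single true 1 + Pi.single false (k' + k), fun h1 => ?_, ?_, ?_⟩
  · have h2 := congrArg (aeval fun v : Σ j, (tup2 g j).io =>
      (match v with
        | ⟨false, i⟩ => P.y i
        | ⟨true, i⟩ => if i = a then 1 else 0 : K)) h1
    simp only [map_sub, map_mul, aeval_X, aeval_rename, if_true, if_neg hab.symm,
      one_mul, zero_mul, sub_zero, map_zero] at h2
    change aeval P.y (p' * X (0 : Fin (P.N + 1)) ^ k) = 0 at h2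
    rw [map_mul, map_pow, aeval_X] at h2
    refine mul_ne_zero ?_ (pow_ne_zero k h0) h2
    exact (p2' ▸ mul_ne_zero (pow_ne_zero _ h0) (g.g_ne 0 b) : aeval P.y p' ≠ 0)
  · refine (weightedHomogeneousSubmodule ℂ _ _).sub_mem
      ((isWeightedHomogeneous_X _ _ _).mul (wh_rename (io := fun j => (tup2 g j).io) false
        (p1'.mul (isHomogeneous_X_pow _ _))))
      ((isWeightedHomogeneous_X _ _ _).mul (wh_rename (io := fun j => (tup2 g j).io) false ?_))
    exact Nat.add_comm k k' ▸ p1.mul (isHomogeneous_X_pow _ _)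
  · simp only [map_sub, map_mul, aeval_X, aeval_rename]
    change g.f a * aeval P.y (p' * X (0 : Fin (P.N + 1)) ^ k) -
      g.f b * aeval P.y (p * X (0 : Fin (P.N + 1)) ^ k') = 0
    rw [map_mul, map_mul, map_pow, map_pow, aeval_X, p2, p2']
    ring

end Two

variable {C : Th} {G : Gw C}

/-- the number for a model which is equal to the blow-up -/
theorem num2 (hN : NUME G) {κ : Type} [Field κ] [Algebra ℂ κ] {P U : PModel ℂ K} {q : Plc K κ}
    (h : SmC P q 2 2) (g : Gens P q) (hU : U = g.bl h) :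
    ∃ (m : Emb (sv U)) (jH j₂ : m.J) (d : m.J →₀ ℕ), m.T jH = ownT (sv P) ∧
      (m.T j₂).bd = mxf ℂ g.f ∧ d jH = 0 ∧ d j₂ ≠ 0 ∧
      C.itg _ (m.h C jH ^ 2 * m.h C j₂ * G.op m d (m.h C j₂ ::ₘ {m.h C j₂})) ≠ 0 := by
  subst hU
  have h1 := hN K κ P q h g (reg2 h g) (emb2 h g) (nt2 h g) (cod2 h g)
  let m : Emb (sv (g.bl h)) :=
    { J := Bool, T := tup2 g, reg := reg2 h g, emb := emb2 h g, nt := nt2 h g, cod := cod2 h g }
  refine ⟨m, false, true, Finsupp.single true 1, rfl, rfl, ?_, ?_, h1⟩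
  · exact Finsupp.single_eq_of_ne Bool.false_ne_true
  · exact Finsupp.single_eq_same.trans_ne one_ne_zero

theorem rs_mor {U V : PModel ℂ K} (h : Ge U V) (t : Tup K) : Rs (mor h) t t :=
  ⟨Equiv.refl _, 1, 1, fun _ => Algebra.mem_top, fun i => by simp [mor_p]⟩

section Fib

variable (b : Bw K) {t : Fin 2 → K} (ht : Coords b.i.p.O t) (hf : mxf ℂ ![1, t 0, t 1] ∈ On b.lo)
include ht hf

theorem at_one (z : b.Z.Pt) : At (mxf ℂ ![1, t 0, t 1]) (b.i.map z) 1 := by
  obtain ⟨u, hu⟩ := hf (b.i.map z)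
  obtain ⟨a, ha⟩ := hu.exists_mxf ⟨0, by simp⟩
  have h1 : ∀ l, ![1, t 0, t 1] a ≠ t l := fun l hl => (ht.van l).2
    ⟨hl ▸ ha.ne, (ht.van l).1, by
      have h2 := b.i.mem_O (ha.div_mem (mem_Sec_mxf _ 0))
      rwa [hl, Matrix.cons_val_zero, one_div] at h2⟩
  fin_cases a
  · exact ha
  · exact absurd rfl (h1 0)
  · exact absurd rfl (h1 1)

theorem pb_G (A : C.Ax) : C.pb b.i (C.c1 (sv b.lo) (mxf ℂ ![1, t 0, t 1])) = 0 := by
  rw [A.man.c1_pb b.i _ hf 0 ⟨1, fun z u hu => ?_⟩, A.man.c1_zero]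
  have h1 := hu.ev_div_ne (at_one b ht hf z)
  rw [b.i.ev_map (LP.mem_of_ne h1)] at h1
  simpa using (at_zero z).mul_unit h1

end Fib

theorem exists_two (A : C.Ax) {Z : SV} (β : Module.Basis (Fin 2) Z.F Ω[Z.F⁄ℂ])
    (h : C.typ Z 2 0 ≠ ⊥) : ∃ ω ∈ Z.P.H β 1 0, ω ≠ 0 := by
  rw [← Sec_k, one_smul, ← Submodule.ne_bot_iff]
  intro h0
  have := A.pd.fin Z
  have h1 := A.pg Z 1 β
  rw [h0, finrank_bot] at h1
  exact h (Submodule.finrank_eq_zero.1 h1)

variable (A : C.Ax) (F : Frm C) (hG : G.Ax) (hS : SUPJ G) (hN : NUME G) (h₁ : LnkEqStmt)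
  (h₂ : NocStmt)
include A F hG hS hN h₁ h₂

theorem exists_dat {b : Bw K} (hb : Sp C b) : Nonempty (Dat G b) := by
  obtain ⟨-, ⟨h, g, e1, e2⟩, t, ht, hf⟩ := hb
  obtain ⟨m₀, jH, j₂, d₀, hH, hj₂, d1, d2, d3⟩ := num2 hN h g e1
  have rG : (tupG t).Reg (sv b.lo) := ⟨⟨(0 : Fin 3), one_ne_zero⟩, hf⟩
  let m := End36.add m₀ (J := Unit) (fun _ => tupG t)
    (fun _ => End36.rs_reg (rs_mor b.ge _) rG.1 rG) fun _ => (inferInstance : Nontrivial (Fin 3))
  have lin : ∀ c, (G.Q m).IsLin (C.pb (mor b.ge) c) fun d => d (.inl jH) = 0 := fun c d hd =>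
    hG.mov m (mor b.ge) (End36.ownP _) (fun _ => .inl jH)
      (fun _ => by rw [show m.T (.inl jH) = _ from hH]; exact rs_mor b.ge _) c d fun _ => hd
  have eG : m.h C (.inr ()) = C.pb (mor b.ge) (C.c1 (sv b.lo) (mxf ℂ ![1, t 0, t 1])) :=
    (End36.rs_pb_c1 A.man (rs_mor b.ge _) rG.1 rG).symm
  have eH : m.h C (.inl jH) = C.pb (mor b.ge) (C.hc (sv b.lo)) := by
    rw [Pre.h, show m.T (.inl jH) = _ from hH]
    exact (End36.rs_pb_c1 A.man (rs_mor b.ge _) (End36.reg_own _).1 (End36.reg_own _)).symm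
  have pr : ∀ d l, d (Sum.inl jH) = 0 → ∀ σ τ,
      C.itg _ (b.t C τ * G.op m d (b.t C σ ::ₘ l)) =
        C.itg _ (b.t C (σ * τ) * G.op m d (b.t C 1 ::ₘ l)) := fun d l hd σ τ =>
    hS m d _ _ _ _ l fun Q μ ν hl => pair A b μ ν (fun z => by
      have h3 := congrFun (h₁ K _ _ b.ge m.toPre (.inl jH) hH d hd Q μ ν hl) z
      rwa [Mor.comp_map, Mor.comp_map] at h3) σ τ
  refine ⟨⟨m, .inl jH, .inr (), lin, ?_, pr, fun d l hd hd' σ hσ => ?_, ?_⟩⟩
  · rw [eG, pb_mul_t A, pb_G b ht hf A, zero_mul, map_zero]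
  · rcases eq_or_ne σ 0 with rfl | h0
    · rw [map_zero]
      exact Hyc.op_zero _ _ _
    obtain ⟨β⟩ := h.exists_basis'
    obtain ⟨ω, w1, w2⟩ := exists_two A β (hσ.elim
      (fun h3 => (Submodule.ne_bot_iff _).2 ⟨σ, h3, h0⟩) fun h3 => (Submodule.ne_bot_iff _).2
        ⟨_, A.typ.cj _ σ h3, fun h4 => h0 (by rw [← A.man.cj_cj _ σ, h4, map_zero])⟩)
    refine (A.pd _).2 _ fun y => ?_
    rw [mul_comm, hS m d _ y 0 y l fun Q μ ν hl => ?_, Gw.op, Hyc.op_zero, mul_zero, map_zero]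
    rw [map_zero, Bw.t_apply, F.bc b.j b.e μ b.dv _ fun E v w hw => ?_]
    have h3 : ¬ Function.Surjective (Mor.comp b.π w).map := fun h3 =>
      h₂ K _ _ b.ge b.Z b.i t b.emb b.lcl ht ⟨2, β, 1, ω, one_pos, w1, w2⟩ m.toPre (.inl jH)
        (.inr ()) hH rfl d hd hd' Q μ ν hl (by
          rintro _ ⟨z, rfl⟩
          obtain ⟨e, rfl⟩ := h3 z
          have h4 := congrFun hw e
          rw [Mor.comp_map, Mor.comp_map] at h4
          exact ⟨v.map e, by rw [Mor.comp_map, Mor.comp_map, ← h4, sq]⟩)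
    rw [← A.man.pb_comp]
    rcases hσ with hσ | hσ
    · exact F.van _ h3 0 σ (by rwa [b.dimZ])
    · rw [← A.man.cj_cj _ σ, A.man.cj_pb, F.van _ h3 0 _ (by rw [b.dimZ]; exact A.typ.cj _ σ hσ),
        map_zero]
  · obtain ⟨s, s1, -, s3⟩ := hG.emb m₀ m Sum.inl Sum.inl_injective (fun _ => rfl) d₀
      (m₀.h C j₂ ::ₘ {m₀.h C j₂})
    rw [s3, Finset.mul_sum, map_sum] at d3
    obtain ⟨d, hd, d4⟩ := Finset.exists_ne_zero_of_sum_ne_zero d3
    have k1 : d (.inl jH) = 0 := (s1 d hd jH).trans d1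
    have k2 : d (.inl j₂) ≠ 0 := (s1 d hd j₂).trans_ne d2
    have k0 : d ≠ 0 := fun h0 => k2 (by rw [h0]; rfl)
    change C.itg _ (m.h C (.inl jH) ^ 2 * m.h C (.inl j₂) *
      G.op m d (m.h C (.inl j₂) ::ₘ {m.h C (.inl j₂)})) ≠ 0 at d4
    have eE : b.t C 1 = (g.m : ℂ) • m.h C (.inl jH) - m.h C (.inl j₂) := by
      have r1 := (m.reg (.inl jH)).2
      have r2 := (m.reg (.inl j₂)).2
      rw [Pre.h, Pre.h, show m.T (.inl jH) = _ from hH, show (m.T (.inl j₂)).bd = _ from hj₂] at *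
      change oP b.lo ∈ _ at r1
      change _ = (g.m : ℂ) • C.c1 (sv b.hi) (oP b.lo) - _
      rw [t_one A, e2, A.man.c1_sub (nsmul_mem r1 _) r2, A.man.c1_nsmul r1, Nat.cast_smul_eq_nsmul]
    generalize m.h C (.inl j₂) = w at d4 eE
    have o1 : ∀ x, G.op m d (b.t C 1 ::ₘ {x}) = -G.op m d (w ::ₘ {x}) := fun x => by
      rw [eE, Gw.op, Hyc.op_sub, Hyc.smul, show (G.Q m).op d _ = 0 from op_h hG k0 k1 x, smul_zero,
        zero_sub]
    have o2 : G.op m d (b.t C 1 ::ₘ {b.t C 1}) = G.op m d (w ::ₘ {w}) := by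
      rw [o1, show (w ::ₘ {b.t C 1} : Multiset _) = b.t C 1 ::ₘ {w} from Multiset.cons_swap _ _ 0,
        o1, neg_neg]
    have o3 : ∀ c, G.op m d (C.pb (mor b.ge) c ::ₘ {w}) = 0 := fun c => by
      have h3 := lin c d k1 1 {w}
      rwa [mul_one, show (G.Q m).op d _ = 0 from op_one hG k2 w, mul_zero] at h3
    have o4 : m.h C (.inl jH) ^ 3 * G.op m d (w ::ₘ {w}) = 0 := by
      have h3 : C.pb (mor b.ge) (C.hc (sv b.lo) ^ 3) * w =
          C.pb (mor b.ge) ((g.m : ℂ) • C.hc (sv b.lo) ^ 4) := by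
        have h4 := pb_mul_t A b (C.hc (sv b.lo) ^ 3) 1
        rw [pb_i_zero A b (Or.inl (by decide)) (A.typ.hc_pow A.man A.pd _ 3), zero_mul, map_zero,
          eE, eH, mul_sub, sub_eq_zero] at h4
        rw [← h4, mul_smul_comm, map_smul, ← map_mul, ← pow_succ]
      rw [eH, ← map_pow, Gw.op, ← lin _ d k1, h3]
      exact o3 _
    refine ⟨d, k0, k1, by_contra fun k3 => d4 ?_, fun k4 => d4 ?_⟩
    · have h3 := hG.dvz m (.inr ()) d (w ::ₘ {w}) (by simp)
      have h4 := lin (C.c1 (sv b.lo) (mxf ℂ ![1, t 0, t 1])) d k1 1 (w ::ₘ {w})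
      rw [mul_one, ← eG, h3, show (G.Q m).op d _ = 0 from hG.str m d _ (by simp), mul_zero,
        smul_eq_zero_iff_right (Nat.cast_ne_zero.2 k3)] at h4
      rw [Gw.op, h4, mul_zero, map_zero]
    · have h3 : C.pb b.i (C.hc (sv b.lo) ^ 2) ∈ C.dg b.Z b.Z.dim := by
        rw [b.dimZ]
        exact A.man.pb_dg _ _ (A.man.hc_pow _ 2)
      have h4 := pb_mul_t A b (C.hc (sv b.lo) ^ 2) 1
      rw [mul_one, A.pd.top_eq A.man h3, map_smul, b.dimZ, map_pow, ← eH] at h4
      have h5 := congrArg (fun x => C.itg _ (x * G.op m d (b.t C 1 ::ₘ {b.t C 1}))) h4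
      simp only [smul_mul_assoc, map_smul, k4, smul_zero] at h5
      rw [o2, eE, mul_sub, sub_mul, mul_smul_comm, ← pow_succ, smul_mul_assoc, o4, smul_zero,
        zero_sub, map_neg, neg_eq_zero] at h5
      exact h5

/-- **(BL) and (PR)** -/
theorem blStmt_of (hB : BlowGStmt C) (h42 : H42Stmt C) : Gwb.BlStmt G := by
  intro K _ _ hK
  refine ⟨Sp C, Sp.ex hB, fun b hb => ?_⟩
  obtain ⟨D⟩ := exists_dat A F hG hS hN h₁ h₂ hb
  have h := (h42 K hK).2 b.hi
  refine ⟨hb.lh, fun x hx _ => End36.eig_of_one A.typ hG D.m fun d l hl => ?_,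
    fun x hx h1 _ => D.pr' A F hG hb.lh h hx h1⟩
  rcases eq_or_ne l 0 with rfl | h0
  · exact ⟨0, by rw [zero_smul]; exact hG.low D.m d _ (by simp)⟩
  · exact D.blk A F hG hb.lh h d l hl h0 hx

end Crest.Agent.X262.Bl53
end
end

-- ▼ part X262/End36/Out
section

/-!
# Row 262, END (helper36), part 4: `EndStmt`, `OneStmt`, `OwnStmt`
-/

set_option autoImplicit false

noncomputable section

namespace Crest.Agent.X262.End36

open Crest.Agent.X277 Crest.Agent.X277.Lef Crest.Agent.X277.AN.G1 Crest.Agent.X277.BD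
  Crest.Agent.X277.BD.Br
open Crest.Agent.X262.Coh Crest.Agent.X262.Ult Crest.Agent.X262.Gwb

variable {C : Th} {G : Gw C} {Y : SV}

theorem ownStmt : OwnStmt := fun Y => ⟨ownP Y, fun _ => rfl⟩

theorem oneStmt (hC : C.Ax) (hG : G.Ax) : OneStmt G := by
  intro Y m hd h42 x hx h
  refine eig_of_one hC.typ hG m fun d l hl => ?_
  induction l using Multiset.induction_on with
  | empty => exact ⟨0, by rw [hG.low m d _ (by simp), zero_smul]⟩
  | cons a l _ =>
    by_cases h0 : d = 0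
    swap
    · exact h d _ h0 hl Multiset.cons_ne_zero
    subst h0
    by_cases h1 : l = 0
    · subst h1
      obtain ⟨c, hc⟩ := Kill52.scal hC.man hC.typ (hl a (Multiset.mem_cons_self _ _))
      exact ⟨c, ((G.Q m).cl x a).trans (hc x (Kill52.kl31 hC.typ hd h42 hx))⟩
    · refine ⟨0, ((G.Q m).zero3 _ ?_).trans (zero_smul _ _).symm⟩
      have := Multiset.card_pos.2 h1
      simp only [Multiset.card_cons]
      omega

theorem rs_pb_own (hM : C.MAN) {X : SV} {μ : Hom X Y} {t : Tup X.F} (h : Rs μ (ownT Y) t)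
    (ht : t.Reg X) : C.c1 X t.bd = C.pb μ (C.hc Y) := (rs_pb_c1 hM h ht.1 (reg_own Y)).symm

theorem endStmt (hC : C.Ax) (hK : KUNP C) (hG : G.Ax) : EndStmt G := by
  intro K _ _ s _ m₁ r M x _ hx d l _ hd hl _
  obtain ⟨a, h1, h2⟩ := M.gp
  refine Submodule.span_mono ?_ (end_mem hC hK hG M.projS M.ip M.m M.jG M.t M.t_ne M.dvp
    (lam := M.lam C) ?_ ?_ hx (hC.man.pb_sq M.ip_ζ x) d hd l hl)
  · rintro _ ⟨i, rfl⟩
    exact ⟨i, Or.inr rfl⟩
  · exact (hC.man.c1_pb _ _ (M.m.reg M.jG).2 a h1).trans (hC.man.c1_pb _ _ oP_mem a h2).symm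
  · rw [show M.lam C = _ from rs_pb_own hC.man M.rsS (M.m.reg _)]
    exact hC.man.pb_tri M.ip_σ _

end Crest.Agent.X262.End36
end
end

-- ▼ part X262/Kill52/Wl
section

/-!
# Row 262, road B (helper52): weak Lefschetz for two-forms, classes of the ends

* `wl20`, `wl31`, `wl13` : an ample smooth divisor of a fourfold without classes of type `(4,2)`
  has no classes of type `(2,0)`, `(3,1)`, `(1,3)` (argument of helper66, by Hodge-Riemann);
* `dim_prod`, `hc_nil`, `pb_hc_pow`, `sq_of_dv`, `itg_end`.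
-/

set_option autoImplicit false

noncomputable section

namespace Crest.Agent.X262.Kill52

open Crest.Agent.X277 Crest.Agent.X277.Lef Crest.Agent.X277.AN.G1 Crest.Agent.X277.BD
  Crest.Agent.X262.Coh

variable {C : Th} {X Y : SV}

section WL

variable (h : C.Ax) {D W : SV} {j : Hom D W} {a : BD ℂ W.F} (hj : IsDv j a) (hW : W.dim = 4)
  (hD : D.dim = 3) (h42 : C.typ W 4 2 = ⊥) {t : ℕ} (ht : 0 < t)
  (ha : C.pb j (C.c1 W a) = t • C.hc D)
include h hj hW hD h42 ht ha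

theorem wl20 : C.typ D 2 0 = ⊥ := by
  refine (Submodule.eq_bot_iff _).2 fun σ hσ => by_contra fun h0 => ?_
  have hx : C.push j σ ∈ C.typ W 3 1 := h.typ.push_typ h.man h.pd j (by omega) (by omega) hσ
  have h1 := h.hr D 2 0 1 (by omega) σ hσ h0 (by
    have h2 := h.typ.mul D (h.typ.hc_pow h.man h.pd D 2) hσ
    rwa [h.typ.gt D _ (by omega), Submodule.mem_bot] at h2)
  have h2 : C.itg W (C.push j σ * C.cj W (C.push j σ)) =
      t * C.itg D (C.hc D ^ 1 * (σ * C.cj D σ)) := by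
    rw [h.pd.push_spec, h.pd.cj_push h.man, h.bc2 j a hj, ha, ← nsmul_eq_mul, ← map_nsmul]
    congr 1
    rw [nsmul_eq_mul, nsmul_eq_mul]
    ring
  have h3 : 0 < (C.itg W (C.push j σ * C.cj W (C.push j σ))).re := by
    rw [h2, ← Complex.ofReal_natCast, Complex.re_ofReal_mul]
    exact mul_pos (by exact_mod_cast ht) (by simpa using h1)
  by_cases hx0 : C.push j σ = 0
  · simp [hx0] at h3
  · have h4 := h.hr W 3 1 0 (by omega) _ hx hx0 (by
      have h5 := h.typ.mul W (h.typ.hc_pow h.man h.pd W 1) hx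
      rwa [h42, Submodule.mem_bot] at h5)
    rw [pow_zero, one_mul, show ((-1 : ℂ)) ^ 3 = -1 by norm_num, neg_one_mul,
      Complex.neg_re] at h4
    linarith

theorem wl13 : C.typ D 1 3 = ⊥ :=
  (Submodule.eq_bot_iff _).2 fun z hz => h.typ.eq_zero_of_typ h.man h.pd hz fun i k hi hk y hy => by
    obtain rfl : i = 2 := by omega
    obtain rfl : k = 0 := by omega
    rw [wl20 h hj hW hD h42 ht ha, Submodule.mem_bot] at hy
    rw [hy, mul_zero, map_zero]

theorem wl31 : C.typ D 3 1 = ⊥ :=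
  (Submodule.eq_bot_iff _).2 fun z hz => by
    have h1 := h.typ.cj D z hz
    rw [wl13 h hj hW hD h42 ht ha, Submodule.mem_bot] at h1
    rw [← h.man.cj_cj D z, h1, map_zero]

end WL

theorem typ42 (hM : C.MAN) (hP : C.PD) (hT : C.TYP) (hd : X.dim = 4) (h : C.typ X 2 0 = ⊥) :
    C.typ X 4 2 = ⊥ :=
  (Submodule.eq_bot_iff _).2 fun z hz => hT.eq_zero_of_typ hM hP hz fun i k hi hk y hy => by
    obtain rfl : i = 0 := by omega
    obtain rfl : k = 2 := by omega
    have h1 := hT.cj X y hy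
    rw [h, Submodule.mem_bot] at h1
    rw [← hM.cj_cj X y, h1, map_zero, mul_zero, map_zero]




theorem dg_nil (hM : C.MAN) {a : C.H X} (ha : a ∈ C.dg X 1) : IsNilpotent a := by
  refine ⟨X.dim + 1, ?_⟩
  have h := hM.dg_pow ha (X.dim + 1)
  rwa [hM.dg_gt X (by omega), Submodule.mem_bot] at h

/-- multiplication by the class of a smooth divisor only depends on the restriction -/
theorem mul_dv (hP : C.PD) (h0 : C.PL0) {D : SV} {j : Hom D X} {a : BD ℂ X.F} (hj : IsDv j a)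
    (x : C.H X) : C.c1 X a * x = C.push j (C.pb j x) := by rw [hP.push_pb, h0 j a hj]

theorem sq_of_dv (hP : C.PD) (h0 : C.PL0) {D : SV} {j : Hom D X} {a : BD ℂ X.F} (hj : IsDv j a)
    {l : C.H X} (h : C.pb j (C.c1 X a) = C.pb j l) : C.c1 X a * C.c1 X a = l * C.c1 X a := by
  rw [mul_comm l, mul_dv hP h0 hj, mul_dv hP h0 hj, h]


end Crest.Agent.X262.Kill52
end
end

-- ▼ part X262/Jk79/Main
section

/-!
# Row 262, road B (helper79): rational fourfolds and smooth hyperplane sections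

* `exists_comp_pol` : a component of an snc boundary with the induced polarisation;
* `exists_hyp`      : a smooth hyperplane section and its components;
* `dim_hyp`, `typ_hyp`, `typ0_rat`, `h42` : Hodge types on models of a rational field;
* `jk`              : Bertini and weak Lefschetz.
-/

set_option autoImplicit false
set_option linter.style.haveILetI false

open Set Filter Topology WithZero

noncomputable section

namespace Crest.Agent.X262.Jk79

open Crest.Agent.X277 Crest.Agent.X277.Lef Crest.Agent.X277.AN.G1 Crest.Agent.X277.BD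
open Crest.Agent.X277.BD.Br (At oP)
open Crest.Agent.X277.Res.Log (On Bd)
open Crest.Agent.X277.Res.Out (Un)
open Crest.Agent.X277.Strat.Fac (toG)
open Crest.Agent.X262.Coh Crest.Agent.X262.FG Crest.Agent.X262.Form88

section Comp

variable {F : Type} [Field F] [Algebra ℂ F] {P : PModel ℂ F} {n : ℕ}

theorem lpb_mdl {κ : Type} [Field κ] [Algebra ℂ κ] {q : Plc F κ} {P' : PModel ℂ κ}
    (hm : Strat.Fac.Mdl q P P') : LPb (X := sv P') (Y := sv P) hm.mor (oP P) (oP P') := by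
  obtain ⟨u, hu⟩ := hm.pol
  refine ⟨u, fun x g hg => ?_⟩
  obtain ⟨i, hi⟩ := exists_pat (hm.mor.map x)
  obtain ⟨i', hi'⟩ := exists_pat x
  have h1 := hu x _ (hm.ov x) i i' hi hi'
  have h2 := hg.ev_div_ne (Br.at_y hi)
  have h3 := (Res.Log.un_iff.2 h2).2.1
  have h4 : P.y i / u ∈ q.O := by_contra fun h => h1.1 (by rw [q.π_off h, zero_div])
  have h5 : q.π (g / u) = q.π (g / P.y i) * q.π (P.y i / u) := by
    rw [← q.π_mul ((hm.ov x).le h3) h4, div_mul_div_cancel₀ (P.y_ne i)]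
  change At _ x (q.π (g / u))
  rw [h5]
  exact ((Br.at_y hi').of_ev' (Res.Log.un_iff.1 h1)).mul_unit (((hm.ov x).ev_eq _ h3).symm ▸ h2)

theorem exists_comp_pol (B : Bd P n) (e : B.ι) : ∃ (G : SV) (v : Hom G (sv P)) (a : BD ℂ F),
    IsDv v a ∧ Val v (B.v e) ∧ LPb v (oP P) G.h ∧ ∀ x, At a (v.map x) (B.τ e (v.map x))⁻¹ := by
  classical
  obtain ⟨κ, _, _, p, hp⟩ := Strat.Fac.exists_plc_bd (B := B) e
  have h0 : ∀ f, f ∈ (toG p).O ↔ B.v e f ≤ 1 := fun f => hp ▸ Iff.rfl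
  have h1 : ∀ x : Pts P, (lp x).O ≤ (toG p).O ↔ On (B.v e) x := fun x =>
    ⟨fun h f hf => (h0 f).1 (h hf), fun h f hf => (h0 f).2 (h f hf)⟩
  have h2 : ∀ e', Strat.Fac.In B (toG p) e' ↔ e' = e := fun e' =>
    ⟨fun h => (B.v_injective ((B.isPD e).nrm.eq_of_le (B.isPD e').nrm fun f hf =>
      h f ((h0 f).2 hf))).symm, fun h f hf => h ▸ (h0 f).1 hf⟩
  have h3 : ∀ x : Pts P, On (B.v e) x → ∀ f ∈ (lp x).O,
      (toG p).π f = 0 ↔ f / B.τ e x ∈ (lp x).O := fun x hx f hf => by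
    rw [Strat.Fac.toG_π, p.r_eq_zero (hp ▸ hx f hf), hp]
    exact (Link.bd_eqn B hx).lt_iff hf
  have h4 : Strat.Fac.Pl B (toG p) (n - 1) := by
    refine ⟨p.exists_r, (B.ne e).imp fun x => (h1 x).2, ?_, fun x hx f hf => ?_,
      fun x hx f hf h => ⟨Pi.single e (f / B.τ e x), fun e' => ?_, fun e' he => ?_, ?_⟩⟩
    · obtain ⟨x, hx⟩ := B.ne e
      obtain ⟨t, σ, -⟩ := B.snc x
      have h5 := (σ ⟨e, hx⟩).pos
      have h6 : Nat.card {e' // Strat.Fac.In B (toG p) e'} = 1 :=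
        Nat.card_eq_one_iff_unique.2 ⟨⟨fun a b => Subtype.ext (((h2 _).1 a.2).trans
          ((h2 _).1 b.2).symm)⟩, ⟨⟨e, (h2 e).2 rfl⟩⟩⟩
      omega
    · obtain ⟨c, hc, h5, h6⟩ := ((B.isPD e).loc_lp ((h1 x).1 hx)).den f ((h0 f).1 hf)
      exact ⟨_, h6, c, hc, p.r_ne_zero (hp ▸ h5), mul_comm _ _⟩
    · rw [Pi.single_apply]
      split_ifs
      exacts [(h3 x ((h1 x).1 hx) f hf).1 h, zero_mem _]
    · exact Pi.single_eq_of_ne (mt (h2 e').2 he) _
    · simp [Pi.single_apply, B.τ_ne]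
  obtain ⟨P', hm⟩ := h4.exists_mdl
  have h6 : ∀ x : Pts P, At (dvs B (Pi.single e 1)) x (B.τ e x)⁻¹ := fun x => by
    have h5 := at_dvs B (Pi.single e 1) x
    rwa [Strat.Fac.mon_single (Pi.single_eq_same e 1) fun e' _ h => Pi.single_eq_of_ne h _] at h5
  refine ⟨sv P', hm.mor, _, ⟨⟨fun x x' h => (hm.ov x).eq_up (h ▸ hm.ov x'),
    fun x => (hm.ov x).surj⟩, fun y hy => ?_, fun x => ⟨_, B.τ_mem e _, h6 _,
      h3 _ ((h1 _).1 (hm.ov x).le)⟩⟩, h0, lpb_mdl hm, fun x => h6 _⟩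
  have h5 := h6 y
  rwa [B.off e y fun h => hy (Form88.mem_range hm.mor ((h1 y).2 h)), inv_one] at h5

/-- the empty boundary -/
theorem nonempty_bd (P : PModel ℂ F) : ∃ n, Nonempty (Bd P n) := by
  obtain ⟨b⟩ := exists_basis P
  exact ⟨_, ⟨
    { ι := Empty
      v := fun e => e.elim
      τ := fun e => e.elim
      ne := fun e => e.elim
      off := fun e => e.elim
      unif := fun e => e.elim
      val := fun e => e.elim
      snc := fun x => (exists_coords b x).imp fun _ h => ⟨fun e => e.1.elim, h, fun e => e.1.elim,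
        fun e => e.1.elim⟩
      coh := fun e => e.elim }⟩⟩

/-- **a smooth hyperplane section**; its components are disjoint -/
theorem exists_hyp (P : PModel ℂ F) : ∃ g, (g ≠ 0 ∧ g ∈ (oP P).Sec) ∧
    ∃ (ι : Type) (_ : Finite ι) (D : ι → SV) (j : ∀ i, Hom (D i) (sv P)) (a : ι → BD ℂ F),
      (∀ i, IsDv (j i) (a i) ∧ LPb (j i) (a i) (D i).h ∧ LPb (j i) (oP P) (D i).h) ∧
      ∀ y : Pts P, ¬ At (oP P) y g → ∃ i, y ∈ range (j i).map := by
  classical
  obtain ⟨n, ⟨B⟩⟩ := nonempty_bd P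
  obtain ⟨u, -, h4⟩ := Bert.exists_not_mem (Bert.sth_bad B (a := oP P) (t := P.y) Br.y_mem_Sec
    fun x => (exists_pat x).imp fun _ => Br.at_y) (one_ne_zero (α := MvPolynomial _ ℂ))
  set s := ∑ i, u i • P.y i with hs
  choose g hg using (Br.oP_mem : oP P ∈ Br.On P)
  have h1 : ∀ x, Bert.Tr B x (s / g x) := fun x => by_contra fun h => h4 ⟨x, _, hg x, h⟩
  have h0 : s ≠ 0 := fun h0 => (h1 (Classical.arbitrary _)).ne (by rw [h0, zero_div])
  have h2 : ∀ x, ∀ᶠ x' in 𝓝 x, Un (lp x').O (s / g x' / (s / g x)) := fun x =>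
    (hg x).eventually.mono fun x' h3 => by
      rw [div_div_div_comm, div_self h0, one_div_div]
      exact Res.Log.un_iff.2 (h3.ev_div_ne (hg x'))
  have h3 : ∀ (v : Valuation F ℤᵐ⁰) (x x' : Pts P), On v x → On v x' →
      v (s / g x) = v (s / g x') := fun v x x' hx hx' => by
    have h4 : ∀ c : ℂ, v (algebraMap ℂ F c) ≤ 1 := fun c => hx _ (algebraMap_mem _ c)
    have h6 := (hg x (rz v h4) fun f hf => hx f hf).trans
      (hg x' (rz v h4) fun f hf => hx' f hf).symm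
    rw [map_div₀, map_div₀, (v_rz_eq_iff v h4).1 h6]
  choose D j a h5 h6 h7 h8 using fun w => exists_comp_pol (Bert.ext h1 h2 h3) (.inr w)
  refine ⟨s, ⟨h0, sum_mem fun i _ => Submodule.smul_mem _ _ (Br.y_mem_Sec i)⟩, _,
    Bert.finite_cp h1 h2, D, j, a, fun w => ⟨h5 w, ?_, h7 w⟩, fun y hy => ?_⟩
  · obtain ⟨c, hc⟩ := h7 w
    refine ⟨c / s, fun x γ hγ => ?_⟩
    have h8 := h8 w x
    rw [show (Bert.ext h1 h2 h3).τ (.inr w) _ = s / g ((j w).map x) from if_pos ((h6 w).on x),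
      inv_div] at h8
    rw [div_div_eq_mul_div]
    refine hc x _ ((hg _).of_ev' ?_)
    have h9 := hγ.ev_div_ne h8
    rwa [div_div_eq_mul_div] at h9
  · obtain ⟨v, h8, -⟩ := (h1 y).exists_eqn fun h => hy ((hg y).of_ev' (Res.Log.un_iff.1 h))
    exact ⟨⟨v, h8.isPD, y, h8.on, h8.lt⟩, (h6 _).mem_range.2 h8.on⟩

end Comp

variable {C : Th} {K : Type} [Field K] [Algebra ℂ K] {N : ℕ}

theorem dim_hyp (Y : Top.Hyp N 0 K) : (sv Y.P).dim = N := by
  obtain ⟨h1, h2⟩ := Rul.hyp_free Y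
  have h3 := h1.isTranscendenceBasis_iff_isAlgebraic.2 (by
    rw [← IntermediateField.isAlgebraic_adjoin_iff_top, h2]
    infer_instance)
  have h4 := h3.cardinalMk_eq_trdeg
  haveI : Algebra.EssFiniteType ℂ K := Geo.eft Y.P
  rw [trdeg_eq_dim (k := ℂ) (F := K), Cardinal.mk_fin] at h4
  exact_mod_cast h4.symm

/-- projective space has only classes of type `(p, p)` -/
theorem typ_hyp (ax : C.Ax) (Y : Top.Hyp N 0 K) {p q : ℕ} (h : p ≠ q) :
    C.typ (sv Y.P) p q = ⊥ := by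
  obtain ⟨k, hk | hk⟩ := Nat.even_or_odd' (p + q)
  swap
  · exact ax.typ.odd _ ⟨k, hk⟩
  refine (Submodule.eq_bot_iff _).2 fun x hx => ?_
  have h1 := ax.typ.le (sv Y.P) hk hx
  rw [ax.pn (sv Y.P) (fun m q hq h => zero_dvd_iff.1 ((Y.ker m q hq).1 h)) k,
    Submodule.mem_span_singleton] at h1
  obtain ⟨c, rfl⟩ := h1
  exact Submodule.disjoint_def.1 ((ax.typ.int (sv Y.P)).submodule_iSupIndep.pairwiseDisjoint
    (show ((p, q) : ℕ × ℕ) ≠ (k, k) from fun e => h ((congrArg Prod.fst e).trans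
      (congrArg Prod.snd e).symm))) _ hx
    (Submodule.smul_mem _ _ (ax.typ.hc_pow ax.man ax.pd _ k))

/-- models of a rational field have no holomorphic forms -/
theorem typ0_rat (ax : C.Ax) (Y : Top.Hyp N 0 K) (P : PModel ℂ K) {p : ℕ}
    (hp : p ≠ 0) : C.typ (sv P) p 0 = ⊥ := by
  obtain ⟨W, h1, h2⟩ := Unf.exists_on_ge P {oP Y.P}
  have h3 : Chn.Ge W P := h1 Br.oP_mem
  have h4 : Chn.Ge W Y.P := h2 _ (Finset.mem_singleton_self _)
  have h5 := bim_id (Chn.mor_p h4)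
  refine (Submodule.eq_bot_iff _).2 fun x hx => ax.pd.pb_inj ax.man (bim_id (Chn.mor_p h3)).dmn ?_
  have h6 := ax.typ.pb (Chn.mor h3) x hx
  have h7 := ax.typ.push_typ ax.man ax.pd (Chn.mor h4) (p' := p) (q' := 0)
    (by rw [h5.dim_eq, add_comm]) (by rw [h5.dim_eq, add_comm]) h6
  rw [typ_hyp ax Y hp, Submodule.mem_bot] at h7
  rw [← bir0 ax (dom ax.man ax.pd) h5 (Or.inl h6), h7, map_zero, map_zero]

theorem h42 (ax : C.Ax) : Gwb.H42Stmt C := fun _ _ _ ⟨Y⟩ =>
  ⟨dim_hyp Y, fun P => Kill52.typ42 ax.man ax.pd ax.typ (dim_hyp Y)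
    (typ0_rat ax Y P two_ne_zero)⟩

theorem jk (ax : C.Ax) : Gwb.JkStmt C := fun _ _ _ P hd h => by
  obtain ⟨g, hg, ι, _, D, j, a, h1, h2⟩ := exists_hyp P
  refine ⟨g, hg, fun Z v hv x hx => ?_⟩
  obtain ⟨i, -, hi⟩ := exists_range v finite_univ j (Eventually.of_forall fun q =>
    (h2 _ (hv q)).imp fun i hi => ⟨trivial, hi⟩)
  obtain ⟨h3, h4, -⟩ := h1 i
  obtain ⟨w, hw⟩ := exists_lift h3.emb v fun q => hi (mem_range_self q)
  have h5 := h3.dim_eq
  have h6 := ax.typ.pb (j i) x hx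
  rw [Kill52.wl31 ax h3 hd (Nat.succ_injective (h5.trans hd)) h one_pos
    (by rw [one_nsmul]; exact ax.man.c1_pb _ _ h3.on _ h4), Submodule.mem_bot] at h6
  rw [← ax.man.pb_congr _ _ hw, ax.man.pb_comp, h6, map_zero]

end Crest.Agent.X262.Jk79
end
end

-- ▼ part X262/Kill52/Main
section

/-!
# Row 262, road B (helper52): `KillStmt`

* `rs_lpb`, `rs_c1` : the restriction of a tuple restricts the hyperplane class;
* `alt`, `van_bad`  : a class of type `(3,1)` dies on the bad locus of a situation;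
* `lam_eq`, `G_eq`, `A_eq`, `G_dv`, `G_sq`, `fact_mst`, `kill_mst`;
* `killStmt`.
-/

set_option autoImplicit false

open Set Filter Topology WithZero

noncomputable section

namespace Crest.Agent.X262.Kill52

open Crest.Agent.X277 Crest.Agent.X277.Lef Crest.Agent.X277.AN.G1 Crest.Agent.X277.BD
  Crest.Agent.X277.BD.Br Polynomial
open Crest.Agent.X277.Link (IsPD)
open Crest.Agent.X262.Coh
open Crest.Agent.X262.Gwb (Tup Rs ownT Sit Mst Emb Jk KillStmt)
open Crest.Agent.X262.Chn (Ge mor Om)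
open Crest.Agent.X262.Gc84 (Me)
open Crest.Agent.X262.Form88 (Iso Dom Val prj)

variable {C : Th} {X Y G E : SV}

/-! ### restriction of tuples -/

theorem rs_lpb {μ : Hom X Y} {t : Tup Y.F} {t' : Tup X.F} (h : Rs μ t t') (ht : ∃ i, t.y i ≠ 0)
    (ht' : ∃ i, t'.y i ≠ 0) : ∃ c, c ≠ 0 ∧ LPb μ t.bd (t'.bd - pr ℂ c) := by
  obtain ⟨e, u, c, h1, h2⟩ := h
  obtain ⟨j, hj⟩ := ht'
  obtain ⟨j, rfl⟩ := e.surjective j
  rw [h2] at hj
  have hc := left_ne_zero_of_mul hj
  refine ⟨c, hc, u, fun x g hg => ?_⟩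
  obtain ⟨i, hi⟩ := hg.exists_mxf ht
  have h3 : ∀ l, t.y l / t.y i ∈ (lp (μ.map x)).O := fun l => hi.div_mem (mem_Sec_mxf t.y l)
  have h4 : ∀ f, f / t.y i ∈ (lp (μ.map x)).O →
      μ.p.π (f / u) = μ.p.π (f / t.y i) * μ.p.π (t.y i / u) := fun f hf => by
    rw [← μ.p.π_mul (μ.mem_O hf) (h1 i), div_mul_div_cancel₀ hi.ne]
  have h5 : μ.p.π (t.y i / u) ≠ 0 := fun h0 =>
    right_ne_zero_of_mul hj (by rw [h4 _ (h3 j), h0, mul_zero])
  have h6 : At t'.bd x (t'.y (e i)) := at_mxf (by rw [h2]; exact mul_ne_zero hc h5) fun l => by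
    obtain ⟨l, rfl⟩ := e.surjective l
    rw [h2, h2, mul_div_mul_left _ _ hc, h4 _ (h3 l), mul_div_cancel_right₀ _ h5]
    exact μ.π_mem (h3 l)
  have h7 := hg.ev_div_ne hi
  have h8 := h6.sub (at_pr x hc)
  rw [h2, mul_div_cancel_left₀ _ hc] at h8
  rw [h4 _ (LP.mem_of_ne h7)]
  exact h8.mul_unit (by rwa [← μ.ev_map (LP.mem_of_ne h7)])

theorem pr_on (X : SV) (c : X.F) : pr ℂ c ∈ X.On := by
  by_cases hc : c = 0
  · rw [hc, pr_zero]; exact zero_mem _
  · exact fun x => ⟨c, at_pr x hc⟩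

theorem c1_sub_pr (hM : C.MAN) {a : BD ℂ X.F} (ha : a ∈ X.On) (c : X.F) :
    C.c1 X (a - pr ℂ c) = C.c1 X a := by rw [hM.c1_sub ha (pr_on X c), hM.c1_pr, sub_zero]

theorem rs_c1 (hM : C.MAN) {μ : Hom X Y} {t : Tup Y.F} {t' : Tup X.F} (h : Rs μ t t')
    (ht : t.Reg Y) (ht' : t'.Reg X) : C.pb μ (C.c1 Y t.bd) = C.c1 X t'.bd := by
  obtain ⟨c, -, h1⟩ := rs_lpb h ht.1 ht'.1
  rw [hM.c1_pb μ _ ht.2 _ h1, c1_sub_pr hM ht'.2]

theorem own_reg (Y : SV) : (ownT Y).Reg Y := ⟨⟨(0 : Fin _), Y.P.y_ne 0⟩, oP_mem⟩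

theorem rs_hc (hM : C.MAN) {μ : Hom X Y} {t' : Tup X.F} (h : Rs μ (ownT Y) t') (ht' : t'.Reg X) :
    C.c1 X t'.bd = C.pb μ (C.hc Y) := (rs_c1 hM h (own_reg Y) ht').symm

/-! ### the bad locus -/

theorem res_not_range {g : Hom G Y} {u : Hom E Y} (h : ¬ range g.map ⊆ range u.map) :
    ∀ᶠ q in residual G.Pt, g.map q ∉ range u.map := by
  obtain ⟨q₀, hq⟩ := not_forall.1 (mt forall_mem_range.2 h)
  exact (Form88.res_not_le g (A := (u.p.O : Set Y.F)) fun h1 =>
    hq (Form88.mem_range u h1)).mono fun q h1 ⟨z, hz⟩ => h1 (hz ▸ Form88.le_map u z)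

variable {K : Type} [Field K] [Algebra ℂ K]

theorem van_val (hM : C.MAN) (hT : C.TYP) (dom : Dom C) (hd : BD.dim ℂ K = 4) {V : PModel ℂ K}
    {u : Hom E (sv V)} {v : Valuation K ℤᵐ⁰} (h : Val u v) (hn : Link.Nrm v) (hv : ¬ IsPD V v)
    {x : C.H (sv V)} (hx : x ∈ Om C V) : C.pb u x = 0 := by
  have h0 : ∀ c : ℂ, v (algebraMap ℂ K c) ≤ 1 := fun c => (h _).1 (algebraMap_mem _ c)
  refine Form88.van_exc hM hT dom (fun h1 => ?_) (fun w h1 h2 => hv ?_) (Or.inl hd.symm) hx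
  · obtain ⟨α, hα⟩ := Form88.dmn_of_surj h1
    obtain ⟨t, ht⟩ := hn
    have h2 := (h t⁻¹).1 (hα ▸ Algebra.mem_top)
    rw [map_inv₀, ht, ← exp_neg, ← exp_zero, exp_le_exp] at h2
    omega
  · have h3 : rz v h0 = rz w h1.triv :=
      Subtype.ext (SetLike.ext fun f => (h f).symm.trans (h2 f))
    exact (Geo.isPD_iff_prm h0 hn).2 (h3 ▸ Geo.prm_of_isPD h1)

theorem alt (hM : C.MAN) (hT : C.TYP) (dom : Dom C) (hd : BD.dim ℂ K = 4) {U V : PModel ℂ K}
    (h : Ge U V) {f : K} (hf : f ≠ 0 ∧ f ∈ (oP U).Sec) (jk : Jk C U f) {x : C.H (sv V)}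
    (hx : x ∈ Om C V) {g : Hom G (sv V)} (hg : C.pb g x ≠ 0) : ∀ᶠ q in residual G.Pt,
      ¬ ∃ w, (mor h).map w = g.map q ∧ (¬ Iso (mor h) w ∨ ¬ At (oP U) w f) := by
  choose D u h1 h2 using fun v : {v // IsPD U v} => Form88.exists_pr (Y := sv U) v.2
  have hS : {v : {v // IsPD U v} | ¬ IsPD V v.1 ∨ ∃ i, v.1 (f / U.y i) < 1}.Finite :=
    (((Form88.finite_exc U V).union (finite_iUnion fun i => Link.finite_isPD U
      (div_ne_zero hf.1 (U.y_ne i)))).preimage Subtype.val_injective.injOn).subset fun v hv =>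
      hv.imp (fun h3 => ⟨v.2, h3⟩) fun ⟨i, hi⟩ => mem_iUnion.2 ⟨i, v.2, hi.ne⟩
  refine ((eventually_all_finite hS).2 fun v hv => res_not_range (g := g)
    (u := Mor.comp (mor h) (u v)) fun h3 => hg (dom _ _ h3 x ?_)).mono fun q hq ⟨w, h3, h4⟩ => ?_
  · rcases hv with hv | ⟨i, hi⟩
    · exact van_val hM hT dom hd (u := Mor.comp (mor h) (u v)) (v := v.1) (fun f =>
        ⟨fun hf => (h1 v f).1 hf.2, fun hf => ⟨Algebra.mem_top, (h1 v f).2 hf⟩⟩) v.2.nrm hv hx
    · rw [hM.pb_comp]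
      refine jk _ _ (fun z hz => ?_) _ (hT.pb _ x hx)
      have h4 := (h1 v).on z _ (hz.div_mem (y_mem_Sec i))
      rw [← inv_div, map_inv₀, inv_le_one₀ (Link.v_pos (div_ne_zero hf.1 (U.y_ne i)))] at h4
      exact h4.not_gt hi
  · obtain ⟨v, h5, h6⟩ : ∃ v : {v // IsPD U v}, (¬ IsPD V v.1 ∨ ∃ i, v.1 (f / U.y i) < 1) ∧
        Res.Log.On v.1 w := by
      rcases h4 with h4 | h4
      · obtain ⟨v, h5, h6, h7⟩ := Form88.exists_pd_of_not_iso (Chn.mor_p h) h4
        exact ⟨⟨v, h5⟩, Or.inl h6, h7⟩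
      · obtain ⟨i, hi⟩ := exists_pat w
        obtain ⟨e, h5, h6⟩ := (Link.ev_eq_zero_iff ((at_y hi).div_mem hf.2)
          (div_ne_zero hf.1 (U.y_ne i))).1 (by_contra fun h5 => h4 ((at_y hi).of_ev' h5))
        exact ⟨⟨e.1, e.2⟩, Or.inr ⟨i, h6⟩, h5⟩
    obtain ⟨z, hz⟩ := (h1 v).mem_range.2 h6
    exact hq v h5 ⟨z, by rw [Mor.comp_map, hz, h3]⟩

/-- **a class of type `(3,1)` dies on the bad locus** -/
theorem van_bad (hM : C.MAN) (hT : C.TYP) (dom : Dom C) {s : Sit K} (hs : s.Ok C)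
    {x : C.H (sv s.Y)} (hx : x ∈ Om C s.Y) {g : Hom G (sv s.Y)}
    (hg : ∀ᶠ q in residual G.Pt, s.Bad (g.map q)) : C.pb g x = 0 := by
  by_contra h0
  obtain ⟨q, -, ⟨⟨h1, h2⟩, h3⟩, h4⟩ := Form88.res_exists
    ((((alt hM hT dom hs.dim (Gwb.ge_rfl s.Y) s.g_mem hs.jk hx h0).and
      (alt hM hT dom hs.dim s.hp s.gp_mem hs.jkp hx h0)).and
      (alt hM hT dom hs.dim s.hm s.gm_mem hs.jkm hx h0)).and hg) isOpen_univ univ_nonempty
  exact h4.elim (fun h => h1 ⟨_, Cns.idM_map _, Or.inr h⟩) fun h => h.elim h2 h3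

/-! ### the master space -/

theorem aeval_mem {H : Type*} [CommRing H] [Algebra ℂ H] (l G e : H) (ρ σ : ℂ[X]) :
    e * (aeval l ρ + aeval l σ * G) ∈ Me ℂ l G e := by
  have h : ∀ z, (∀ i : ℕ, l ^ i * z ∈ Me ℂ l G e) → ∀ f : ℂ[X], aeval l f * z ∈ Me ℂ l G e :=
    fun z hz f => by
      rw [aeval_eq_sum_range, Finset.sum_mul]
      exact Submodule.sum_mem _ fun i _ => by
        rw [smul_mul_assoc]; exact Submodule.smul_mem _ _ (hz i)
  rw [show e * (aeval l ρ + aeval l σ * G) = aeval l ρ * e + aeval l σ * (G * e) by ring]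
  exact add_mem (h _ (fun i => Submodule.subset_span ⟨i, Or.inl rfl⟩) ρ)
    (h _ (fun i => Submodule.subset_span ⟨i, Or.inr rfl⟩) σ)

theorem aeval_divX {H : Type*} [CommRing H] [Algebra ℂ H] (l : H) (f : ℂ[X]) :
    aeval l f = algebraMap ℂ H (f.coeff 0) + aeval l f.divX * l := by
  conv_lhs => rw [← f.divX_mul_X_add, map_add, map_mul, aeval_X, aeval_C, add_comm]

theorem prj_zero_mul (hM : C.MAN) {l : C.H X} (hl : l ∈ C.dg X 1) (b : C.H X) :
    prj hM X 0 (b * l) = 0 :=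
  hM.ind (p := fun b => prj hM X 0 (b * l) = 0) (by simp)
    (fun k b hb => Form88.prj_ne hM (hM.dg_mul X hb hl) (by omega))
    (fun a b h h' => by rw [add_mul, map_add, h, h', add_zero]) b

section Mst

variable {s : Sit K} {m₁ : Emb (sv s.Ym)} {r : ℕ} (M : Mst s m₁ r) (hM : C.MAN)
include hM

theorem lam_eq : M.lam C = C.pb M.σ (C.hc M.S) := rs_hc hM M.rsS (M.m.reg _)

theorem G_eq : M.G C = C.pb M.γ (C.hc M.P) := rs_hc hM M.rsG (M.m.reg _)

theorem A_eq : M.A C = C.pb M.ζ (C.hc (sv s.Y)) := rs_hc hM M.rsA (M.m.reg _)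

theorem h_dg (j : M.m.J) : M.m.h C j ∈ C.dg M.B 1 := hM.c1_dg _ _ (M.m.reg j).2

theorem G_dv : C.c1 M.B ((M.m.T M.jG).bd - pr ℂ ((M.m.T M.jG).y M.t)) = M.G C :=
  c1_sub_pr hM (M.m.reg _).2 _

theorem ip_lam : C.pb M.ip (M.lam C) = C.pb (snd _ M.S) (C.hc M.S) := by
  rw [lam_eq M hM, hM.pb_tri M.ip_σ]


theorem ip_G : C.pb M.ip (M.G C) = C.pb (snd _ M.S) (C.hc M.S) := by
  obtain ⟨a, h1, h2⟩ := M.gp
  rw [hM.c1_pb _ _ (M.m.reg _).2 _ h1, hM.c1_pb _ _ oP_mem _ h2]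

theorem G_sq (hP : C.PD) (h0 : C.PL0) : M.G C * M.G C = M.lam C * M.G C := by
  rw [← G_dv M hM]
  exact sq_of_dv hP h0 M.dvp (by rw [G_dv M hM, ip_G M hM, ip_lam M hM])

omit hM in
/-- FACT 1 on the master space -/
theorem fact_mst (ax : C.Ax) (dom : Dom C) (x : C.H M.B)
    (h1 : ∀ (G : SV) (g : Hom G M.B), (∀ᶠ q in residual G.Pt, s.Bad (M.ζ.map (g.map q))) →
      C.pb g x = 0) (h2 : C.pb M.im x = 0) :
    x = C.pb (pair M.ζ M.γ) (C.push (pair M.ζ M.γ) x) :=
  (Form88.fact1 ax dom M.bim fun G g hg => by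
    by_cases h : range g.map ⊆ range M.im.map
    · exact dom _ _ h x h2
    · exact h1 G g ((res_not_range h).mono fun q hq => (M.exc _ (hg q)).resolve_left hq)).symm

omit hM in
/-- **KILL on the master space**; the polynomials do not depend on the class -/
theorem kill_mst (ax : C.Ax) (hK : KUNP C) (dom : Dom C) (hs : s.Ok C) {a : C.H M.B}
    (ha : a ∈ AA C M.B) : ∃ ρ σ : ℂ[X], ∀ x ∈ Om C s.Y, C.pb M.ζ x * a =
      C.pb M.ζ x * (aeval (M.lam C) ρ + aeval (M.lam C) σ * M.G C) := by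
  have sq := G_sq M ax.man ax.pd ax.pl0
  rw [lam_eq M ax.man, G_eq M ax.man] at sq ⊢
  obtain ⟨ρ, σ, h⟩ := kill ax.man ax.pd ax.typ ax.pn hK M.projS M.projP M.ζ M.σ M.γ M.bim
    (mor s.hm) M.im M.im_ζ M.im_σ sq (J := fun x => ∀ (G : SV) (g : Hom G M.B),
      (∀ᶠ q in residual G.Pt, s.Bad (M.ζ.map (g.map q))) → C.pb g x = 0)
    (fun x a hx G g hg => by rw [map_mul, hx G g hg, zero_mul]) (fact_mst M ax dom) ha
  refine ⟨ρ, σ, fun x hx => h x (kl31 ax.typ hs.dim (hs.h42 _) hx)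
    (kl31 ax.typ hs.dim (hs.h42 _) (ax.typ.pb _ x hx)) fun G g hg => ?_⟩
  rw [← ax.man.pb_comp]
  exact van_bad ax.man ax.typ dom hs hx (hg.mono fun q hq => by rwa [Mor.comp_map])

end Mst

/-- **KILL** -/
theorem killStmt (ax : C.Ax) (hK : Gwb.KUNP C) : KillStmt C := by
  intro K _ _ s hs m₁ r M
  have hM := ax.man
  have dom : Dom C := Form88.dom hM ax.pd
  refine ⟨dg_nil hM (h_dg M hM _), dg_nil hM (h_dg M hM _), G_sq M hM ax.pd ax.pl0,
    fun x hx => ⟨?_, fun a ha => ?_, fun a ha p hp h0 => ?_⟩⟩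
  · rw [A_eq M hM, ← map_mul, mul_comm,
      kl31 ax.typ hs.dim (hs.h42 _) hx 1 one_pos _ (ax.typ.c1 _ _ oP_mem), map_zero]
  · obtain ⟨ρ, σ, h⟩ := kill_mst M ax hK dom hs ha
    exact h x hx ▸ aeval_mem _ _ _ ρ σ
  · obtain ⟨ρ, σ, h⟩ := kill_mst M ax hK dom hs ha
    obtain ⟨c, hc⟩ := hM.dg_zero _ _ (Form88.prj_mem hM 0 a)
    have he : C.pb M.ζ x ∈ C.dg M.B 2 := hM.pb_dg _ _ (ax.typ.le _ rfl hx)
    have h1 := Form88.prj_mul hM he 0 a
    rw [mul_comm a, h x hx, mul_comm, Form88.prj_mul hM he 0, hc, map_add,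
      prj_zero_mul hM (h_dg M hM _), add_zero, aeval_divX, map_add, prj_zero_mul hM (h_dg M hM _),
      add_zero, Form88.prj_same hM (hM.alg_mem _ _)] at h1
    refine ⟨c, σ.coeff 0, fun h2 => h0 ?_, _, aeval_mem _ _ _ ρ.divX σ.divX, ?_⟩
    · have h3 := Form88.prj_mul hM hp 0 a
      rw [hc, h2, map_zero, zero_mul, zero_add] at h3
      rw [← Form88.itg_prj hM, mul_comm, h3, map_zero]
    · rw [h x hx, Algebra.smul_def, Algebra.smul_def, ← h1, aeval_divX _ ρ, aeval_divX _ σ]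
      ring

end Crest.Agent.X262.Kill52
end
end

-- ▼ part X262/EndsMk/Frm
section

/-!
# Row 262, road B, ENDS-MK (helper62), part 1: forms of a point over a rational function field

* `Rt al u`      : `L = K(u)` with `u` transcendental;
* `Fm al u y d f`: `y = c · f(u)` with coprime forms `f` of multidegree `d`; `exists_forms`;
* `Fm.le`, `Fm.zero_iff`, `Fm.one`, `Fm.of_le`, `Fm.rel` : the degrees, the relations;
* `line_of`, `line_of_gen` : construction of `Ends.Line`.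
-/

set_option autoImplicit false
set_option linter.unusedSectionVars false
set_option linter.style.haveILetI false

noncomputable section

namespace Crest.Agent.X262.EndsMk

open Crest.Agent.X277 Crest.Agent.X277.BD Polynomial
open Crest.Agent.X262.Vb Crest.Agent.X262.Ends
open IntermediateField (adjoin)
open Set (range)

variable {K L : Type} [Field K] [Algebra ℂ K] [Field L] [Algebra ℂ L] {al : K →ₐ[ℂ] L} {u : L}

/-- `L` is the field of rational functions in `u` over `K` -/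
structure Rt (al : K →ₐ[ℂ] L) (u : L) : Prop where
  inj : ∀ g : K[X], aevalTower al u g = 0 → g = 0
  gen : adjoin ℂ (range al ∪ {u}) = ⊤

theorem adjoin_top (h : adjoin ℂ (range al ∪ {u}) = ⊤) :
    letI := al.toRingHom.toAlgebra; adjoin K {u} = ⊤ := by
  letI := al.toRingHom.toAlgebra
  haveI : IsScalarTower ℂ K L := IsScalarTower.of_algebraMap_eq fun c => (al.commutes c).symm
  rw [← IntermediateField.restrictScalars_eq_top_iff (K := ℂ)]
  refine top_unique (h ▸ IntermediateField.adjoin_le_iff.2 ?_)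
  rintro _ (⟨x, rfl⟩ | rfl)
  · exact (adjoin K _).algebraMap_mem x
  · exact IntermediateField.mem_adjoin_simple_self K _

theorem Rt.injective (h : Rt al u) : Function.Injective (aevalTower al u) :=
  (injective_iff_map_eq_zero _).2 h.inj

theorem Rt.frac (h : Rt al u) (z : L) :
    ∃ g g' : K[X], g' ≠ 0 ∧ z * aevalTower al u g' = aevalTower al u g := by
  letI := al.toRingHom.toAlgebra
  obtain ⟨g, g', rfl⟩ := (IntermediateField.mem_adjoin_simple_iff K z).1
    (adjoin_top h.gen ▸ IntermediateField.mem_top)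
  by_cases h0 : g' = 0
  · exact ⟨0, 1, one_ne_zero, by simp [h0]⟩
  · exact ⟨g, g', h0, div_mul_cancel₀ _ (mt (h.inj g') h0)⟩




section Dim

variable [Algebra.EssFiniteType ℂ K] [Algebra.EssFiniteType ℂ L]


theorem Rt.dim (h : Rt al u) : dim ℂ L = dim ℂ K + 1 := by
  letI := al.toRingHom.toAlgebra
  haveI : IsScalarTower ℂ K L := IsScalarTower.of_algebraMap_eq fun c => (al.commutes c).symm
  have h1 : IsTranscendenceBasis K ![u] :=
    (algebraicIndependent_iff_transcendental.2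
      (transcendental_iff.2 h.inj)).isTranscendenceBasis_iff_isAlgebraic.2 (by
      rw [← IntermediateField.isAlgebraic_adjoin_iff_top, Matrix.range_cons_empty, adjoin_top h.gen]
      infer_instance)
  have h2 := trdeg_add_eq ℂ K (A := L)
  have h3 := h1.lift_cardinalMk_eq_trdeg
  rw [Cardinal.mk_fin, Cardinal.lift_natCast, Cardinal.lift_id] at h3
  rw [← h3, trdeg_eq_dim, trdeg_eq_dim] at h2
  exact_mod_cast h2.symm

theorem dim_sub_le (S : IntermediateField ℂ L) (h : ∀ x ∈ S, x ∈ range al) : dim ℂ S ≤ dim ℂ K := by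
  have := R273.FG_259.essFiniteType_of_le S
  exact dim_le ((AlgEquiv.ofInjectiveField al).symm.toAlgHom.comp
    (Subalgebra.inclusion (S := S.toSubalgebra) h))

/-- the ratios of `s` lie in the image of `K` -/
theorem dim_qf_le {ι : Type} {s : ι → L} (h : ∀ i i', s i / s i' ∈ range al) :
    dim ℂ (qf ℂ s) ≤ dim ℂ K :=
  dim_sub_le _ (IntermediateField.adjoin_le_iff (T := al.fieldRange).2 (by
    rintro _ ⟨i, j, rfl⟩
    exact h j i))

end Dim

theorem exists_form (h : Rt al u) {ι : Type} [Fintype ι] {s : ι → L} (h0 : ∃ i, s i ≠ 0) :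
    ∃ (n : ℕ) (f : ι → K[X]) (c : L), c ≠ 0 ∧ (∀ i, (f i).natDegree ≤ n) ∧
      (∃ i, (f i).coeff n ≠ 0) ∧ Ideal.span (range f) = ⊤ ∧
      ∀ i, s i = c * aevalTower al u (f i) := by
  classical
  choose g g' h1 h2 using fun i => h.frac (s i)
  let G : ι → K[X] := fun i => g i * ∏ l ∈ Finset.univ.erase i, g' l
  have h3 : aevalTower al u (∏ l, g' l) ≠ 0 :=
    mt (h.inj _) (Finset.prod_ne_zero_iff.2 fun l _ => h1 l)
  have h4 : ∀ i, s i * aevalTower al u (∏ l, g' l) = aevalTower al u (G i) := fun i => by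
    rw [← Finset.mul_prod_erase _ _ (Finset.mem_univ i), map_mul, ← mul_assoc, h2, map_mul]
  obtain ⟨e, he⟩ := (IsPrincipalIdealRing.principal (Ideal.span (range G))).principal
  have h5 : ∀ i, ∃ f, G i = e * f := fun i =>
    Ideal.mem_span_singleton.1 (he.le (Ideal.subset_span ⟨i, rfl⟩))
  choose f hf using h5
  have h6 : e ≠ 0 := fun h6 => by
    obtain ⟨i, hi⟩ := h0
    exact mul_ne_zero hi h3 (by rw [h4, hf, h6, zero_mul, map_zero])
  obtain ⟨a, ha⟩ := Ideal.mem_span_range_iff_exists_fun.1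
    (he.ge (Ideal.mem_span_singleton_self e))
  have h7 : ∑ i, a i * f i = 1 := mul_left_cancel₀ h6 (by
    rw [mul_one, Finset.mul_sum]
    exact (Finset.sum_congr rfl fun i _ => by rw [hf, mul_left_comm]).trans ha)
  obtain ⟨i, hi, h8⟩ := (Finset.univ.filter fun i => f i ≠ 0).exists_max_image
    (fun i => (f i).natDegree) (by
      obtain ⟨i, -, hi⟩ := Finset.exists_ne_zero_of_sum_ne_zero (h7 ▸ one_ne_zero)
      exact ⟨i, by simpa using right_ne_zero_of_mul hi⟩)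
  refine ⟨(f i).natDegree, f, aevalTower al u e / aevalTower al u (∏ l, g' l),
    div_ne_zero (mt (h.inj _) h6) h3, fun l => ?_, ⟨i, by simpa using hi⟩,
    (Ideal.eq_top_iff_one _).2 (Ideal.mem_span_range_iff_exists_fun.2 ⟨a, h7⟩), fun l => ?_⟩
  · by_cases hl : f l = 0
    · simp [hl]
    · exact h8 l (by simpa using hl)
  · rw [div_mul_eq_mul_div, ← map_mul, ← hf, ← h4, mul_div_cancel_right₀ _ h3]

variable {J : Type} [Fintype J] [DecidableEq J] {io : J → Type} [∀ j, Fintype (io j)]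
  [∀ j, DecidableEq (io j)] {A : Type} [Fintype A]

/-- `y` is given by the coprime forms `f` of multidegree `d` -/
structure Fm (al : K →ₐ[ℂ] L) (u : L) (y : Pnt io L) (d : J → ℕ) (f : (j : J) → io j → K[X]) :
    Prop where
  cp : Cp d f
  eq : ∀ j, ∃ c : L, c ≠ 0 ∧ ∀ i, y j i = c * aevalTower al u (f j i)

variable {y : Pnt io L} {d : J → ℕ} {f : (j : J) → io j → K[X]}

theorem exists_forms (h : Rt al u) (hy : NZ y) : ∃ d f, Fm al u y d f := by
  choose d f c h1 h2 h3 h4 h5 using fun j => exists_form h (hy j)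
  exact ⟨d, f, ⟨h2, h3, h4⟩, fun j => ⟨c j, h1 j, h5 j⟩⟩

namespace Fm

variable (hF : Fm al u y d f) (h : Rt al u)
include hF h

theorem nz : NZ y := fun j => by
  obtain ⟨c, h1, h2⟩ := hF.eq j
  obtain ⟨i, hi⟩ := hF.cp.2.1 j
  exact ⟨i, h2 i ▸ mul_ne_zero h1 (mt (h.inj _) fun h0 => hi (by simp [h0]))⟩

/-- any other representation is a multiple -/
theorem dvd {j : J} {c : L} {g : io j → K[X]} (hg : ∀ i, y j i = c * aevalTower al u (g i)) :
    ∃ e : K[X], e ≠ 0 ∧ ∀ i, g i = e * f j i := by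
  obtain ⟨c', h1, h2⟩ := hF.eq j
  obtain ⟨a, ha⟩ := Ideal.mem_span_range_iff_exists_fun.1 ((Ideal.eq_top_iff_one _).1 (hF.cp.2.2 j))
  have h3 : c' = c * aevalTower al u (∑ i, a i * g i) := by
    rw [← mul_one c', ← map_one (aevalTower al u), ← ha, map_sum, map_sum, Finset.mul_sum,
      Finset.mul_sum]
    refine Finset.sum_congr rfl fun i _ => ?_
    rw [map_mul, map_mul, mul_left_comm, ← h2, hg, mul_left_comm]
  refine ⟨∑ i, a i * g i, fun h0 => h1 (by rw [h3, h0, map_zero, mul_zero]), fun i =>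
    h.injective (mul_left_cancel₀ (left_ne_zero_of_mul (h3 ▸ h1)) ?_)⟩
  rw [map_mul, ← mul_assoc, ← h3, ← h2, hg]

/-- the degree is minimal -/
theorem le {j : J} {c : L} {g : io j → K[X]} (hg : ∀ i, y j i = c * aevalTower al u (g i))
    {n : ℕ} (hn : ∀ i, (g i).natDegree ≤ n) : d j ≤ n := by
  obtain ⟨e, h1, h2⟩ := hF.dvd h hg
  obtain ⟨i, hi⟩ := hF.cp.2.1 j
  have h3 := hn i
  rw [h2, natDegree_mul h1 fun h0 => hi (by simp [h0])] at h3
  exact (le_natDegree_of_ne_zero hi).trans (by omega)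

omit h in
theorem div_eq {j : J} (hj : d j = 0) (i i' : io j) :
    y j i / y j i' = al ((f j i).coeff 0 / (f j i').coeff 0) := by
  obtain ⟨c, h1, h2⟩ := hF.eq j
  have h3 : ∀ i, aevalTower al u (f j i) = al ((f j i).coeff 0) := fun i => by
    conv_lhs => rw [eq_C_of_natDegree_le_zero ((hF.cp.1 j i).trans hj.le), aevalTower_C]
  rw [h2, h2, h3, h3, mul_div_mul_left _ _ h1, map_div₀]

theorem zero_iff (j : J) : d j = 0 ↔ ∀ i i', y j i / y j i' ∈ range al := by
  refine ⟨fun hj i i' => ⟨_, (hF.div_eq hj i i').symm⟩, fun h1 => ?_⟩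
  obtain ⟨i₀, h0⟩ := hF.nz h j
  choose r hr using fun i => h1 i i₀
  exact Nat.le_zero.1 (hF.le h (c := y j i₀) (g := fun i => C (r i))
    (fun i => by rw [aevalTower_C, hr, mul_div_cancel₀ _ h0]) fun i => (natDegree_C _).le)

theorem one {j : J} {c : L} {g : io j → K[X]} (hg : ∀ i, y j i = c * aevalTower al u (g i))
    (hn : ∀ i, (g i).natDegree ≤ 1) (h1 : ∃ i i', y j i / y j i' ∉ range al) : d j = 1 := by
  obtain ⟨i, i', h1⟩ := h1
  have h2 := hF.le h hg hn
  have h3 : d j ≠ 0 := fun h0 => h1 ((hF.zero_iff h j).1 h0 i i')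
  omega

/-- a representation of the right degree is coprime -/
theorem of_le {g : (j : J) → io j → K[X]}
    (hg : ∀ j, ∃ c : L, ∀ i, y j i = c * aevalTower al u (g j i))
    (hn : ∀ j i, (g j i).natDegree ≤ d j) : Fm al u y d g := by
  have key : ∀ j, ∃ e : K, e ≠ 0 ∧ ∀ i, g j i = C e * f j i := fun j => by
    obtain ⟨c, hc⟩ := hg j
    obtain ⟨e, h1, h2⟩ := hF.dvd h hc
    obtain ⟨i, hi⟩ := hF.cp.2.1 j
    have h3 := hn j i
    rw [h2, natDegree_mul h1 fun h0 => hi (by simp [h0])] at h3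
    have h4 := le_natDegree_of_ne_zero hi
    rw [eq_C_of_natDegree_eq_zero (show e.natDegree = 0 by omega)] at h1 h2
    exact ⟨_, C_ne_zero.1 h1, h2⟩
  choose e h1 h2 using key
  refine ⟨⟨hn, fun j => (hF.cp.2.1 j).imp fun i hi => ?_, fun j => top_unique
    (hF.cp.2.2 j ▸ Ideal.span_le.2 ?_)⟩, fun j => (hg j).imp fun c hc => ⟨fun h0 => ?_, hc⟩⟩
  · rw [h2, coeff_C_mul]
    exact mul_ne_zero (h1 j) hi
  · rintro _ ⟨i, rfl⟩
    have h3 := Ideal.mul_mem_left _ (C (e j)⁻¹) (Ideal.subset_span (s := range (g j)) ⟨i, rfl⟩)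
    rwa [h2, ← mul_assoc, ← C_mul, inv_mul_cancel₀ (h1 j), C_1, one_mul] at h3
  · obtain ⟨i, hi⟩ := hF.nz h j
    exact hi (by rw [hc, h0, zero_mul])

/-- the relations of the forms are those of the point -/
theorem rel {q : MvPolynomial (Vr io) ℂ} {κ : J → ℕ} (hq : MH q κ) : pf f q = 0 ↔ pv y q = 0 := by
  choose c h1 h2 using hF.eq
  have h3 : pv y q = (∏ j, c j ^ κ j) * aevalTower al u (pf f q) := by
    rw [pf, ← AlgHom.comp_apply, MvPolynomial.comp_aeval, ← Node22.mh_aeval hq, pv]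
    exact congrArg (fun z => MvPolynomial.aeval z q) (funext fun v => h2 v.1 v.2)
  rw [h3, mul_eq_zero, or_iff_right (Finset.prod_ne_zero_iff.2 fun j _ => pow_ne_zero _ (h1 j))]
  exact (map_eq_zero_iff _ h.injective).symm

end Fm

theorem tree_nz {T : Tgt io A} {M E : Type} [Field E] [Algebra ℂ E] {z : M → Pnt io E}
    (h : TreePts T d z) (q : M) : NZ (z q) := fun j => by
  obtain ⟨L, _, _, _, α, t, x, c, h1, -, -, h4, h5⟩ := h
  obtain ⟨i, hi⟩ := nz_ev t h1 (x q) j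
  exact ⟨i, fun h0 => mul_ne_zero (h4 q j) hi (by rw [← h5, h0, map_zero])⟩

theorem tree_on {T : Tgt io A} {M E : Type} [Field E] [Algebra ℂ E] {z : M → Pnt io E}
    (h : TreePts T d z) (q : M) : T.On (z q) := fun a => by
  obtain ⟨L, _, _, _, α, t, x, c, -, -, h3, -, h5⟩ := h
  refine α.injective ?_
  change α (pv _ _) = α 0
  rw [map_zero, pv, ← AlgHom.comp_apply, MvPolynomial.comp_aeval]
  simp only [h5]
  exact (Node22.mh_aeval (T.hom a) (c q) _).trans (mul_eq_zero_of_right _ (h3 (x q) a))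

variable [Algebra.EssFiniteType ℂ K] [Algebra.EssFiniteType ℂ L] {T : Tgt io A} {ν : J → ℕ} {j₁ : J}

/-- **construction of a line** from the generic point `y` of the swept variety -/
theorem line_of (hF : Fm al u y d f) (h : Rt al u) (one : d j₁ = 1) (on : T.On y)
    (hb : ∀ j, ν j ≠ 0 → ∀ i i', y j i / y j i' ∈ range al) (hg : ∀ x, al x ∈ bas ν y)
    (dm : dim ℂ K = ∑ j, ν j) (dj : ∀ j, ν j ≠ 0 → dim ℂ (qf ℂ (y j)) ≤ ν j)
    (sw : ∀ q κ, MH q κ → pv y q = 0 → ∀ (E : Type) [Field E] [Algebra ℂ E] (z : Pnt io E),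
      TreePts T d (fun _ : Unit => z) → pv z q = 0) : Line T d ν j₁ f := by
  have h0 : ∀ j, ν j ≠ 0 → d j = 0 := fun j hj => (hF.zero_iff h j).2 (hb j hj)
  refine ⟨hF.cp, one, h0, fun a => (hF.rel h (T.hom a)).2 (on a), top_unique fun x _ => ?_, dm,
    fun j hj => le_trans ?_ (dj j hj), fun q κ hq h1 => sw q κ hq ((hF.rel h hq).1 h1)⟩
  · have h1 : bas ν y ≤ (bas ν fun j i => (f j i).coeff 0).map al :=
      IntermediateField.adjoin_le_iff.2 (by
        rintro _ ⟨j, i, i', hj, rfl⟩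
        exact ⟨_, IntermediateField.subset_adjoin _ _ ⟨j, i, i', hj, rfl⟩,
          (hF.div_eq (h0 j hj) i i').symm⟩)
    obtain ⟨x', h2, h3⟩ := h1 (hg x)
    exact al.injective h3 ▸ h2
  · have h1 : (qf ℂ fun i => (f j i).coeff 0) ≤ (qf ℂ (y j)).comap al :=
      IntermediateField.adjoin_le_iff.2 (by
        rintro _ ⟨i, i', rfl⟩
        change al _ ∈ qf ℂ (y j)
        exact hF.div_eq (h0 j hj) i' i ▸ div_mem_qf _ _ _)
    have := R273.FG_259.essFiniteType_of_le (qf ℂ fun i => (f j i).coeff 0)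
    have := R273.FG_259.essFiniteType_of_le (qf ℂ (y j))
    exact dim_le ((al.comp (IntermediateField.val _)).codRestrict (qf ℂ (y j)).toSubalgebra
      fun x => h1 x.2)

/-- the lines fill the target -/
theorem line_of_gen {c : ℕ} (hy : GenPt T c y) (h : Rt al u) {e : L} {g : io j₁ → K[X]}
    (h1 : ∀ i, y j₁ i = e * aevalTower al u (g i)) (h2 : ∀ i, (g i).natDegree ≤ 1)
    (h3 : ∃ i i', y j₁ i / y j₁ i' ∉ range al)
    (hb : ∀ j, ν j ≠ 0 → ∀ i i', y j i / y j i' ∈ range al) (hg : ∀ x, al x ∈ bas ν y)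
    (dm : dim ℂ K = ∑ j, ν j) (dj : ∀ j, ν j ≠ 0 → dim ℂ (qf ℂ (y j)) ≤ ν j) :
    ∃ d f, Fm al u y d f ∧ Line T d ν j₁ f ∧ ∑ j, ν j + 1 + c = adim io := by
  obtain ⟨d, f, hF⟩ := exists_forms h hy.nz
  exact ⟨d, f, hF, line_of hF h (hF.one h h1 h2 h3) hy.on hb hg dm dj fun q κ hq h0 E _ _ z hz =>
    hy.irr q κ hq h0 E z (tree_nz hz ()) (tree_on hz ()), by rw [← dm, ← h.dim, hy.dm]⟩

end Crest.Agent.X262.EndsMk
end
end

-- ▼ part X262/EndsMk/Tan
section

/-!
# Row 262, road B, ENDS-MK (helper62), part 2: the normal direction along the fibre of a blow-up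

`O` has coordinates `t 0, t 1`, `u = t 1 / t 0`, and `r : O → K` kills the coordinates.
* `red_zero`      : a polynomial over `O` which vanishes at `u` reduces to zero;
* `exists_lin`, `exists_pol` : elements of `(t 0, t 1) ^ n` are `t 0 ^ n · P(u)`;
* `red_aeval`     : residues of the values `P(u)`;
* `tan_of_coords` : construction of `Ends.Tan`.
-/

set_option autoImplicit false
set_option linter.unusedSectionVars false

noncomputable section

namespace Crest.Agent.X262.EndsMk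

open Crest.Agent.X277 Crest.Agent.X277.BD Polynomial
open Crest.Agent.X277.Res.Out (Coords Van resDer coe_resDer)
open Crest.Agent.X262.Vb Crest.Agent.X262.Ends
open Set (range)

variable {F K L : Type} [Field F] [Algebra ℂ F] [Field K] [Algebra ℂ K] [Field L] [Algebra ℂ L]
  {O : Subalgebra ℂ F} {t : Fin 2 → F}

theorem red_zero (h : Coords O t) (r : O →ₐ[ℂ] K) (hr : ∀ l, r (h.el l) = 0) {P : O[X]}
    (hP : aeval (t 1 / t 0) P = 0) : P.map (r : O →+* K) = 0 := by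
  obtain ⟨D, hD⟩ := h.exists_der
  have := RingHom.ker_isPrime r
  have : CharZero K := charZero_of_injective_algebraMap (algebraMap ℂ K).injective
  have : CharZero (O ⧸ RingHom.ker r) := RingHom.charZero (RingHom.kerLift (r : O →+* K))
  have h1 : MvPolynomial.eval ![h.el 1, h.el 0] (P.homogenize P.natDegree) = 0 := by
    refine Subtype.ext ?_
    have h2 := eval_homogenize (p := P.map (algebraMap O F)) natDegree_map_le ![t 1, t 0]
      (h.ne_zero 0)
    rw [homogenize_map, eval_map_algebraMap] at h2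
    change algebraMap O F _ = 0
    rw [MvPolynomial.map_eval]
    refine Eq.trans ?_ (h2.trans (mul_eq_zero_of_left hP _))
    congr 2
    funext l
    fin_cases l <;> rfl
  have h2 := Res.P0.map_eq_zero_of_mem (RingHom.ker r) ⊥ ![h.el 1, h.el 0] ![D 1, D 0]
    (fun l j => by fin_cases l <;> fin_cases j <;> simp [hD]) (by simp) bot_le
    (Ideal.span_le.2 (by
      rintro _ ⟨l, rfl⟩
      fin_cases l
      exacts [hr 1, hr 0])) _ _ (isHomogeneous_homogenize P) (h1 ▸ zero_mem _)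
  rw [← homogenize_map, homogenize_eq_zero_iff natDegree_map_le] at h2
  ext i
  rw [coeff_map, coeff_zero]
  exact Ideal.Quotient.eq_zero_iff_mem.1 ((coeff_map _ i).symm.trans (by rw [h2, coeff_zero]))

theorem exists_lin (h : Coords O t) {x : F} (hx : Van O x) :
    ∃ P : O[X], P.natDegree ≤ 1 ∧ x = t 0 * aeval (t 1 / t 0) P := by
  obtain ⟨a, h1, rfl⟩ := h.gen x hx
  refine ⟨C ⟨a 1, h1 1⟩ * X + C ⟨a 0, h1 0⟩, natDegree_linear_le, ?_⟩
  have := h.ne_zero 0
  simp only [Fin.sum_univ_two, map_add, map_mul, aeval_C, aeval_X, Subalgebra.algebraMap_apply]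
  field_simp
  ring



theorem der_aeval {σ B : Type} [Fintype σ] [CommRing B] [Algebra ℂ B] (D : Derivation ℂ B B)
    (η : σ → B) (q : MvPolynomial σ ℂ) : D (MvPolynomial.aeval η q) =
      ∑ i, MvPolynomial.aeval η (MvPolynomial.pderiv i q) * D (η i) := by
  classical
  induction q using MvPolynomial.induction_on with
  | C a => simp
  | add p q hp hq => simp [hp, hq, add_mul, Finset.sum_add_distrib]
  | mul_X p i hp =>
    simp only [map_mul, MvPolynomial.aeval_X, Derivation.leibniz, hp, smul_eq_mul, map_add,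
      MvPolynomial.pderiv_X, add_mul, Finset.sum_add_distrib, Finset.mul_sum, mul_assoc]
    congr 1
    rw [Finset.sum_eq_single i (by simp +contextual [eq_comm]) (by simp)]
    simp

theorem der_pol {R : Type} [CommRing R] [Algebra ℂ R] [Algebra R F] (d : Fin 2 → Derivation ℂ R R)
    (d' : Fin 2 → Derivation ℂ F F) (h : ∀ l a, d' l (algebraMap R F a) = algebraMap R F (d l a))
    {u : F} (hu : (d' 0 + u • d' 1) u = 0) : ∃ D : Derivation ℂ R[X] R[X],
      (∀ P, (D P).natDegree ≤ P.natDegree + 1) ∧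
      ∀ P, (d' 0 + u • d' 1) (aeval u P) = aeval u (D P) := by
  let e : Fin 2 → Derivation ℂ R[X] R[X] := fun l =>
    PolynomialModule.equivPolynomialSelf.compDer (d l).mapCoeffs
  have h3 : ∀ l P i, (e l P).coeff i = d l (P.coeff i) := fun _ _ _ => rfl
  have h4 : ∀ l P, (e l P).natDegree ≤ P.natDegree := fun l P =>
    natDegree_le_iff_coeff_eq_zero.2 fun i hi => by
      rw [h3, coeff_eq_zero_of_natDegree_lt hi, map_zero]
  have h5 : ∀ l a, e l (C a) = C (d l a) := fun l a => by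
    ext i
    rw [h3, coeff_C, coeff_C]
    split_ifs <;> simp
  have h6 : ∀ l, e l X = 0 := fun l => by
    ext i
    rw [h3, coeff_X]
    split_ifs <;> simp
  refine ⟨e 0 + (X : R[X]) • e 1, fun P => ?_, fun P => ?_⟩
  · refine natDegree_add_le_of_degree_le ((h4 0 P).trans (Nat.le_succ _))
      (natDegree_mul_le.trans ?_)
    rw [add_comm]
    exact add_le_add (h4 1 P) natDegree_X_le
  · induction P using Polynomial.induction_on with
    | C a => simp [h5, h, mul_comm u]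
    | add p q hp hq => rw [map_add, map_add, hp, hq, map_add, map_add]
    | monomial n a h =>
      rw [pow_succ, ← mul_assoc, map_mul, aeval_X, Derivation.leibniz, Derivation.leibniz, h, hu]
      simp [h6]

/-- the derivative along `t 0` for fixed `u` -/
theorem exists_der (h : Coords O t) : ∃ (D : Derivation ℂ O[X] O[X]) (D' : Derivation ℂ F F),
    D' (t 0) = 1 ∧ (∀ P, (D P).natDegree ≤ P.natDegree + 1) ∧
      ∀ P, D' (aeval (t 1 / t 0) P) = aeval (t 1 / t 0) (D P) := by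
  obtain ⟨d, h1, h2⟩ := h.der
  have h0 := h.ne_zero 0
  obtain ⟨D, hD⟩ := der_pol (fun l => resDer O (d l) (h1 l)) d (fun _ _ => rfl) (u := t 1 / t 0) (by
    simp only [Derivation.add_apply, Derivation.smul_apply, Derivation.leibniz_div, h2]
    simp
    field_simp
    simp)
  exact ⟨D, _, by simp [h2], hD⟩

variable {J : Type} [Fintype J] [DecidableEq J] {io : J → Type} [∀ j, Fintype (io j)]
  [∀ j, DecidableEq (io j)] {A : Type} [Fintype A]

theorem pf_map (r : O →ₐ[ℂ] K) (g : (j : J) → io j → O[X]) (q : MvPolynomial (Vr io) ℂ) :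
    pf (fun j i => (g j i).map (r : O →+* K)) q =
      (MvPolynomial.aeval (fun v : Vr io => g v.1 v.2) q).map (r : O →+* K) :=
  (DFunLike.congr_fun (MvPolynomial.comp_aeval (fun v : Vr io => g v.1 v.2) (mapAlgHom r)) q).symm

theorem pv_aeval (u : F) (g : (j : J) → io j → O[X]) (q : MvPolynomial (Vr io) ℂ) :
    pv (fun j i => aeval u (g j i)) q =
      aeval u (MvPolynomial.aeval (fun v : Vr io => g v.1 v.2) q) :=
  (DFunLike.congr_fun (MvPolynomial.comp_aeval (fun v : Vr io => g v.1 v.2)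
    ((aeval u : O[X] →ₐ[O] F).restrictScalars ℂ)) q).symm

/-- relations reduce -/
theorem pf_red (h : Coords O t) (r : O →ₐ[ℂ] K) (hr : ∀ l, r (h.el l) = 0)
    {g : (j : J) → io j → O[X]} {q : MvPolynomial (Vr io) ℂ}
    (hq : pv (fun j i => aeval (t 1 / t 0) (g j i)) q = 0) :
    pf (fun j i => (g j i).map (r : O →+* K)) q = 0 := by
  rw [pf_map]
  exact red_zero h r hr ((pv_aeval _ g q).symm.trans hq)

/-- **construction of the normal direction**: `q` vanishes to order one along the divisor -/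
theorem tan_of_coords (h : Coords O t) (r : O →ₐ[ℂ] K) (hr : ∀ l, r (h.el l) = 0) {T : Tgt io A}
    {d : J → ℕ} {g : (j : J) → io j → O[X]} (hg : ∀ j i, (g j i).natDegree ≤ d j)
    (on : T.On fun j i => aeval (t 1 / t 0) (g j i)) {q : MvPolynomial (Vr io) ℂ} {κ : J → ℕ}
    (hq : MH q κ) {w : O[X]}
    (hw : pv (fun j i => aeval (t 1 / t 0) (g j i)) q = t 0 * aeval (t 1 / t 0) w)
    (h0 : w.map (r : O →+* K) ≠ 0) : Tan T d fun j i => (g j i).map (r : O →+* K) := by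
  obtain ⟨D, D', h1, h2, h3⟩ := exists_der h
  have h4 : ∀ p : MvPolynomial (Vr io) ℂ, ∑ v, pf (fun j i => (g j i).map (r : O →+* K))
      (MvPolynomial.pderiv v p) * (D (g v.1 v.2)).map (r : O →+* K) =
      (D (MvPolynomial.aeval (fun v : Vr io => g v.1 v.2) p)).map (r : O →+* K) := fun p => by
    simp only [der_aeval, pf_map, Polynomial.map_sum, Polynomial.map_mul]
  have h5 : (C (h.el 0)).map (r : O →+* K) = 0 := by rw [map_C, RingHom.coe_coe, hr, C_0]
  rw [pv_aeval] at hw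
  refine ⟨fun v => (D (g v.1 v.2)).map (r : O →+* K), fun v => natDegree_map_le.trans
    ((h2 _).trans (Nat.succ_le_succ (hg _ _))), fun a => ?_, q, κ, hq, ?_, ?_⟩
  · rw [h4]
    exact red_zero h r hr (by rw [← h3, ← pv_aeval, on a, map_zero])
  · have h6 := red_zero h r hr (P := MvPolynomial.aeval (fun v : Vr io => g v.1 v.2) q -
      C (h.el 0) * w) (by rw [map_sub, hw, map_mul, aeval_C]; exact sub_self _)
    rwa [Polynomial.map_sub, Polynomial.map_mul, h5, zero_mul, sub_zero, ← pf_map] at h6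
  · have h6 := red_zero h r hr (P := D (MvPolynomial.aeval (fun v : Vr io => g v.1 v.2) q) -
      (C (h.el 0) * D w + w)) (by
        rw [map_sub, ← h3, hw, Derivation.leibniz, h1, h3, map_add, map_mul, aeval_C, smul_eq_mul,
          smul_eq_mul, mul_one]
        exact sub_self _)
    rw [Polynomial.map_sub, Polynomial.map_add, Polynomial.map_mul, h5, zero_mul, zero_add,
      sub_eq_zero] at h6
    rwa [h4, h6]


end Crest.Agent.X262.EndsMk
end
end

-- ▼ part X262/EndsCl/Cls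
section

/-!
# Row 262, road B, ENDS-CL (helper50), part 1: the class of the insertion `lin`

* `itg_lin`   : the class-level number is the invariant of `Ends.lin`;
* `deg_zero`  : a coordinate without zeros on a tree forces degree zero;
* `exists_plc` : a point of the target gives a place of the function field;
* `exists_mh` : elements of an affine chart ring are values of multihomogeneous polynomials.
-/

set_option autoImplicit false
set_option linter.unusedSectionVars false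

noncomputable section

namespace Crest.Agent.X262.EndsCl

open Crest.Agent.X277 Crest.Agent.X277.BD
open Crest.Agent.X262.Coh Crest.Agent.X262.Vb Crest.Agent.X262.Qn Crest.Agent.X262.Gwb
open Crest.Agent.X262.Ends (lin)
open Crest.Agent.X262.Bub96 (Tr hv)
open Finset

section Gen

variable {J : Type} [Fintype J] [DecidableEq J] {io : J → Type} [∀ j, Fintype (io j)]
  [∀ j, DecidableEq (io j)] {A : Type} [Fintype A]

theorem mcls_lin {B : Hb.Th} (hB : B.Ax) (T : Tgt io A) (ν : J → ℕ) (j₁ : J) {M : Type}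
    [Fintype M] (q₀ : M) : MCls B T (lin B ν j₁ q₀) :=
  mcls_mul (mcls_prd fun _ => cls_hc hB j₁) (mcls_at (α := fun E _ _ y => ∏ j, hc B j E y ^ ν j)
    ⟨fun E _ _ _ y c h1 h2 h3 => prod_congr rfl fun j _ => by
        rw [(cls_hc (T := T) hB j).scl E y c h1 h2 h3],
      fun K E _ _ _ _ _ _ p y h1 h2 => (map_prod _ _ _).trans (prod_congr rfl fun j _ => by
        rw [map_pow, (cls_hc (T := T) hB j).nat K E p y h1 h2])⟩ q₀)

theorem deg_zero {k : Type} [Field k] [IsAlgClosed k] (t : Tr k J io) {j : J} {i : io j}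
    (h : ∀ x, t.ev x j i ≠ 0) : t.deg j = 0 := by
  induction t with
  | leaf d g =>
    have h1 : (g j i).coeff (d j) ≠ 0 := h ((), none)
    by_contra h2
    obtain ⟨x, hx⟩ := IsAlgClosed.exists_root (g j i) (Polynomial.natDegree_pos_iff_degree_pos.1
      ((Nat.pos_of_ne_zero h2).trans_le (Polynomial.le_natDegree_of_ne_zero h1))).ne'
    exact h ((), some x) hx
  | glue t p s iht ihs =>
    change t.deg j + s.deg j = 0
    rw [iht fun x => h (Sum.inl x.1, x.2), ihs fun x => h (Sum.inr x.1, x.2)]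

theorem exists_mh {K : Type} [Field K] [Algebra ℂ K] (y : Pnt io K) {j : J} {i₀ : io j}
    (h0 : y j i₀ = 1) {a : K} (ha : a ∈ Algebra.adjoin ℂ (Set.range (y j))) :
    ∃ q κ, MH q κ ∧ pv y q = a := by
  have hX : ∀ i, MH (MvPolynomial.X (⟨j, i⟩ : Vr io)) (Pi.single j 1) := fun i =>
    MvPolynomial.isWeightedHomogeneous_X ℂ _ _
  suffices h : ∃ q, ∃ k : ℕ, MH q (k • Pi.single j 1) ∧ pv y q = a from
    h.imp fun _ ⟨_, h⟩ => ⟨_, h⟩
  induction ha using Algebra.adjoin_induction with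
  | mem x hx =>
    obtain ⟨i, rfl⟩ := hx
    exact ⟨MvPolynomial.X ⟨j, i⟩, 1, by rw [one_smul]; exact hX i, MvPolynomial.aeval_X _ _⟩
  | algebraMap c =>
    exact ⟨MvPolynomial.C c, 0, by rw [zero_smul]; exact MvPolynomial.isWeightedHomogeneous_C _ c,
      MvPolynomial.aeval_C _ _⟩
  | add a b _ _ h1 h2 =>
    obtain ⟨q, k, h1, rfl⟩ := h1
    obtain ⟨q', k', h2, rfl⟩ := h2
    exact ⟨q * MvPolynomial.X ⟨j, i₀⟩ ^ k' + MvPolynomial.X ⟨j, i₀⟩ ^ k * q', k + k',
      by rw [add_smul]; exact (h1.mul ((hX i₀).pow k')).add (((hX i₀).pow k).mul h2),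
      by simp [pv, h0]⟩
  | mul a b _ _ h1 h2 =>
    obtain ⟨q, k, h1, rfl⟩ := h1
    obtain ⟨q', k', h2, rfl⟩ := h2
    exact ⟨q * q', k + k', by rw [add_smul]; exact h1.mul h2, map_mul _ _ _⟩

theorem aeval_mem {σ K : Type} [Field K] [Algebra ℂ K] {S : Subalgebra ℂ K} {a : σ → K}
    (h : ∀ s, a s ∈ S) (q : MvPolynomial σ ℂ) : MvPolynomial.aeval a q ∈ S :=
  Algebra.adjoin_le (Set.range_subset_iff.2 h)
    (by rw [Algebra.adjoin_range_eq_range_aeval]; exact ⟨q, rfl⟩)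

theorem pv_div {K : Type} [Field K] [Algebra ℂ K] {q : MvPolynomial (Vr io) ℂ} {κ : J → ℕ}
    (h : MH q κ) (y : Pnt io K) (n : J → K) :
    pv (fun j i => y j i / n j) q = (∏ j, (n j)⁻¹ ^ κ j) * pv y q := by
  simp only [div_eq_inv_mul]
  exact Node22.mh_aeval h (fun j => (n j)⁻¹) fun v => y v.1 v.2

/-- a point of the target is a place of the function field -/
theorem exists_plc [DecidableEq A] {K L : Type} [Field K] [Algebra ℂ K] [Field L] [Algebra ℂ L]
    {T : Tgt io A} {y : Pnt io K}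
    (hT : Ideal.span (Set.range T.F) = Syz.hI ℂ Sigma.fst fun v : Vr io => y v.1 v.2)
    {z : Pnt io L} (hz : T.On z) (c : ∀ j, io j) (hc : ∀ j, z j (c j) ≠ 0) :
    ∃ p : AN.G1.Plc K L, ∀ j i,
      y j i / y j (c j) ∈ p.O ∧ p.π (y j i / y j (c j)) = z j i / z j (c j) := by
  obtain ⟨φ, hφ⟩ := Syz.exists_hom_of_on hT (c := fun j => ⟨j, c j⟩) (fun _ => rfl)
    (fun j => Syz.ne_of_on hT hz (hc j)) hz (t := fun j => (z j (c j))⁻¹)
    fun j => inv_mul_cancel₀ (hc j)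
  refine ⟨AN.G1.plcAt φ, fun j i => ⟨AN.G1.le_plcAt φ (Algebra.subset_adjoin ⟨⟨j, i⟩, rfl⟩), ?_⟩⟩
  have h1 := hφ (MvPolynomial.X ⟨j, i⟩)
  rw [← AN.G1.plcAt_π, Syz.coe_mpi, MvPolynomial.aeval_X, MvPolynomial.aeval_X] at h1
  exact h1.trans (inv_mul_eq_div _ _)

end Gen

variable {C : Coh.Th} {B : Hb.Th}

/-- **the class-level number** -/
theorem itg_lin (V : Vir C B) {Y : SV} (m : Emb Y) (d : m.J →₀ ℕ) (ν : m.J → ℕ) (j₁ : m.J) :
    C.itg Y ((∏ j, m.h C j ^ ν j) * m.h C j₁ * V.gw.op m d (m.h C j₁ ::ₘ m.h C j₁ ::ₘ 0)) =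
      GW B m.tgt d (lin B ν j₁ (0 : Fin 3)) := by
  have h1 : ((∏ j, m.h C j ^ ν j) * m.h C j₁) ::ₘ m.h C j₁ ::ₘ m.h C j₁ ::ₘ 0 =
      univ.val.map ![(∏ j, m.h C j ^ ν j) * m.h C j₁, m.h C j₁, m.h C j₁] := by
    simp [Fin.univ_val_map, ← Multiset.cons_coe]
  rw [V.itg_op m d (by simp), h1, Ev.gw_eq (V.a0 m d)]
  refine GW_congr (V.a0 m d) (Ev.mcls (V.evAx m) _) (mcls_lin V.hB _ _ _ _)
    fun E _ _ _ y h2 h3 => ?_
  have h4 : ∀ q j, V.I.ev m.toPre E (y q) (m.h C j) = hc B j E (y q) := fun q j =>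
    (V.evAx m).hc j E _ (h2 q) (h3 q)
  rw [prd, lin, Fin.prod_univ_three, Fin.prod_univ_three]
  change V.I.ev m.toPre E (y 0) (_ * _) * V.I.ev m.toPre E (y 1) (m.h C j₁) *
    V.I.ev m.toPre E (y 2) (m.h C j₁) = _
  simp only [map_mul, map_prod, map_pow, h4]
  ring

end Crest.Agent.X262.EndsCl
end
end

-- ▼ part X262/EndsCl/Exc
section

/-!
# Row 262, road B, ENDS-CL (helper50), part 2: the exceptional line of a blow-up

* `sw`          : contracted trees lie in the exceptional divisor;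
* `exists_line` : the generic fibre of the exceptional divisor, `Ends.Line` and `Ends.Tan`;
* `nume`        : `Bl53.NUME` for the instance.
-/

set_option autoImplicit false
set_option linter.unusedSectionVars false

noncomputable section

namespace Crest.Agent.X262.EndsCl

open Crest.Agent.X277 Crest.Agent.X277.Lef Crest.Agent.X277.AN.G1 Crest.Agent.X277.BD
open Crest.Agent.X277.Res.Out (Coords)
open Crest.Agent.X277.Res.Log (On un_iff)
open Crest.Agent.X277.Strat.Fac (exists_pt_le π_ne)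
open Crest.Agent.X262.Coh Crest.Agent.X262.Vb Crest.Agent.X262.Gwb Crest.Agent.X262.Ends
open Crest.Agent.X262.Blow Crest.Agent.X262.EndsMk
open Crest.Agent.X262.Bl53 (tup2 NUME)
open Polynomial WithZero

variable {K κ : Type} [Field K] [Algebra ℂ K] [Field κ] [Algebra ℂ κ] {P : PModel ℂ K}
  {q : Plc K κ} (g : Gens P q)

/-- the index sets -/
abbrev io2 : Bool → Type := fun j => (tup2 g j).io

/-- the generic point -/
abbrev y2 : Pnt (io2 g) K := fun j i => (tup2 g j).y i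

/-- the normalising factors along the exceptional divisor -/
def n2 (i₀ : Fin (P.N + 1)) (s : K) : Bool → K
  | false => P.y i₀
  | true => P.y i₀ ^ g.m * s

/-- the index of a chart -/
def e2 (l : Fin (P.N + 1)) (j : Fin (g.M + 1)) : (b : Bool) → io2 g b
  | false => l
  | true => j

variable {g} {A : Type} [Fintype A] [DecidableEq A] {T : Tgt (io2 g) A} {d : Bool → ℕ}

theorem v_aeval_lt {v : Valuation K ℤᵐ⁰} (hv : IsOrd q v) {u : K} (hu : v u ≤ 1) {p : q.O[X]}
    (hp : p.map (q.hom : q.O →+* κ) = 0) : v (aeval u p) < 1 := by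
  rw [aeval_eq_sum_range]
  refine v.map_sum_lt one_ne_zero fun i _ => ?_
  rw [Algebra.smul_def, map_mul, map_pow]
  exact mul_lt_one_of_lt_of_le ((hv.lt_one_iff (p.coeff i).2).2
    ((coeff_map _ i).symm.trans (by rw [hp, coeff_zero]))) (pow_le_one' hu _)

/-- **contracted trees lie in the exceptional divisor** -/
theorem sw (h : SmC P q 2 2) (hT : Ideal.span (Set.range T.F) =
      Syz.hI ℂ Sigma.fst fun v : Vr (io2 g) => y2 g v.1 v.2) (d0 : d false = 0) (d1 : d true ≠ 0)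
    {v : Valuation K ℤᵐ⁰} (hv : IsOrd q v) {i₀ : Fin (P.N + 1)} {s : K} (hs : v s = exp (-1 : ℤ))
    {Q : MvPolynomial (Vr (io2 g)) ℂ} {k : Bool → ℕ} (hQ : MH Q k)
    (h0 : v (pv (fun j i => y2 g j i / n2 g i₀ s j) Q) < 1) {E : Type} [Field E] [Algebra ℂ E]
    {z : Pnt (io2 g) E} (hz : TreePts T d fun _ : Unit => z) : pv z Q = 0 := by
  obtain ⟨L, _, _, _, α, t, x, c, hok, rfl, hon, -, hz⟩ := hz
  suffices h1 : pv (t.ev (x ())) Q = 0 by
    refine α.injective ?_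
    change α (pv _ _) = α 0
    rw [map_zero, pv, ← AlgHom.comp_apply, MvPolynomial.comp_aeval]
    simp only [hz ()]
    exact (Node22.mh_aeval hQ (c ()) _).trans (mul_eq_zero_of_right _ h1)
  generalize x () = x₀
  obtain ⟨l, hl⟩ : ∃ l : Fin (P.N + 1), t.ev x₀ false l ≠ 0 := nz_ev t hok x₀ false
  obtain ⟨j₀, hj₀⟩ : ∃ j : Fin (g.M + 1), t.ev x₀ true j ≠ 0 := nz_ev t hok x₀ true
  have he : ∀ j, t.ev x₀ j (e2 g l j₀ j) ≠ 0 := by
    rintro (_ | _)
    exacts [hl, hj₀]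
  obtain ⟨p, hp⟩ := exists_plc hT (hon x₀) _ he
  have hA : P.A l ≤ p.O := Algebra.adjoin_le (Set.range_subset_iff.2 fun i => (hp false i).1)
  by_cases h1 : p.π (g.g l j₀) = 0
  · obtain ⟨x', hx', hle⟩ := exists_pt_le (P := g.bl h) (i := g.ix h l j₀) (q := p)
      (g.A_ix h _ _ ▸ chB_le hA fun k => (hp true k).1)
    obtain ⟨hi, hj⟩ := Gens.mem_pat_ix.1 hx'
    have hOn : On v x' := by_contra fun h2 => π_ne hle (un_iff.2 (hv.ev_g_ne h2 hi hj)) h1
    have hq := hv.eqn_g hOn hi hj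
    have h2 : ∀ i, P.y i / P.y l ∈ (lp x').O := fun i => (Gens.r_dom x').le (y_mem hi i)
    have h3 : pv (fun j i => y2 g j i / y2 g j (e2 g l j₀ j)) Q ∈ (lp x').O := aeval_mem (by
      rintro ⟨_ | _, i⟩
      exacts [h2 i, hj i]) Q
    have hs0 : s ≠ 0 := by rintro rfl; exact exp_ne_zero (hs.symm.trans v.map_zero)
    have h4 : (fun j i => y2 g j i / y2 g j (e2 g l j₀ j)) =
        fun j i => y2 g j i / n2 g i₀ s j / (y2 g j (e2 g l j₀ j) / n2 g i₀ s j) := by
      funext j i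
      refine (div_div_div_cancel_right₀ ?_ _ _).symm
      cases j
      exacts [P.y_ne _, mul_ne_zero (pow_ne_zero _ (P.y_ne _)) hs0]
    have h5 : v (pv (fun j i => y2 g j i / y2 g j (e2 g l j₀ j)) Q) < 1 := by
      rw [h4, pv_div hQ, map_mul, map_prod, mul_comm]
      refine mul_lt_one_of_lt_of_le h0 (Finset.prod_le_one' fun j _ => ?_)
      rw [map_pow, inv_div]
      refine pow_le_one' ?_ _
      cases j
      · change v (P.y i₀ / P.y l) ≤ 1
        exact hOn _ (h2 i₀)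
      · change v (P.y i₀ ^ g.m * s / g.f j₀) ≤ 1
        have h6 : P.y i₀ ^ g.m * s / g.f j₀ = (P.y i₀ / P.y l) ^ g.m * (s / g.g l j₀) := by
          have := P.y_ne l
          rw [div_pow]
          field_simp
        rw [h6, map_mul, map_pow, map_div₀ v s, hs, hq.val, div_self exp_ne_zero, mul_one]
        exact pow_le_one' (hOn _ (h2 i₀)) _
    have h6 := p.π_mul (hle (hq.div _ h3 h5)) (hle hq.mem)
    rw [div_mul_cancel₀ _ (g.g_ne _ _), h1, mul_zero, pv,
      (Plc.π_aeval (fun v : Vr (io2 g) => (hp v.1 v.2).1) Q).2] at h6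
    have h7 := pv_div hQ (t.ev x₀) fun j => t.ev x₀ j (e2 g l j₀ j)
    rw [pv, ← funext fun v : Vr (io2 g) => (hp v.1 v.2).2, h6] at h7
    exact (mul_eq_zero.1 h7.symm).resolve_left
      (Finset.prod_ne_zero_iff.2 fun j _ => pow_ne_zero _ (inv_ne_zero (he j)))
  · refine absurd (deg_zero t (j := true) (i := j₀) ?_) d1
    intro x₁ h2
    apply h1
    obtain ⟨j₁, hj₁⟩ : ∃ j : Fin (g.M + 1), t.ev x₁ true j ≠ 0 := nz_ev t hok x₁ true
    have h3 : t.ev x₁ false = t.ev x₀ false := funext fun i =>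
      (tree_const t hok d0 x₁ i).trans (tree_const t hok d0 x₀ i).symm
    obtain ⟨p', hp'⟩ := exists_plc hT (hon x₁) (e2 g l j₁) (by
      rintro (_ | _)
      exacts [h3 ▸ hl, hj₁])
    have hA' : P.A l ≤ p'.O := Algebra.adjoin_le (Set.range_subset_iff.2 fun i => (hp' false i).1)
    have h4 : ∀ a ∈ P.A l, p.π a = p'.π a := fun a ha => by
      obtain ⟨r, rfl⟩ := exists_poly ha
      refine (Plc.π_aeval (fun i => (hp false i).1) r).2.trans
        (Eq.trans ?_ (Plc.π_aeval (fun i => (hp' false i).1) r).2.symm)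
      exact congrArg (MvPolynomial.aeval · r) (funext fun i =>
        (hp false i).2.trans (h3 ▸ (hp' false i).2.symm))
    have h5 : p'.π (g.f j₀ / g.f j₁) = 0 :=
      (hp' true j₀).2.trans (div_eq_zero_iff.2 (Or.inl h2))
    have h6 := p'.π_mul (f := g.f j₀ / g.f j₁) (hp' true j₀).1 (hA' (g.mem j₁ _))
    rw [h5, zero_mul, ← g.g_div l, div_mul_cancel₀ _ (g.g_ne l j₁)] at h6
    exact (h4 _ (g.mem _ _)).trans h6

/-- **the exceptional line** -/
theorem exists_line [Algebra.EssFiniteType ℂ κ] (h : SmC P q 2 2) (hT : Ideal.span (Set.range T.F) =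
      Syz.hI ℂ Sigma.fst fun v : Vr (io2 g) => y2 g v.1 v.2) (d0 : d false = 0) (d1 : d true = 1)
    {ν : Bool → ℕ} (ν0 : ν false = 2) (ν1 : ν true = 0) :
    ∃ f : (j : Bool) → io2 g j → κ[X], Line T d ν true f ∧ Tan T d f := by
  obtain ⟨x, hx⟩ := h.ne
  obtain ⟨s, w, ha⟩ := h.crd x hx
  obtain ⟨i₀, hi⟩ := exists_pat x
  obtain ⟨v, hv⟩ := h.exists_ord two_pos
  obtain ⟨β⟩ := h.exists_basis'
  have hd : dim ℂ κ = 2 := (Module.finrank_eq_card_basis β).trans (Fintype.card_fin 2)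
  have hA : P.A i₀ ≤ q.O := (A_le hi).trans hx
  have hs := ha.coI h
  have hc := coI_iff.1 hs
  have hr : ∀ l, q.hom (hc.el l) = 0 := hs.π_eq
  have hs0 := hs.ne_zero 0
  choose R hR1 hR2 using fun j => exists_lin hc (van_plc.2 ⟨hA (g.mem j i₀), g.van j i₀ hA⟩)
  let F : (j : Bool) → io2 g j → q.O[X] := fun
    | false => fun i => C ⟨P.y i / P.y i₀, hA (div_mem_chart P.y i₀ i)⟩
    | true => R
  have hF : (fun j i => aeval (s 1 / s 0) (F j i)) = fun j i => y2 g j i / n2 g i₀ (s 0) j := by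
    funext j i
    cases j
    · exact aeval_C _ _
    · exact ((div_div _ _ _).symm.trans ((congrArg (· / s 0) (hR2 i)).trans
        (mul_div_cancel_left₀ _ hs0))).symm
  have hdeg : ∀ j i, (F j i).natDegree ≤ d j := by
    rintro (_ | _) i
    exacts [(natDegree_C _).le.trans (Nat.zero_le _), d1 ▸ hR1 i]
  have hon : T.On fun j i => aeval (s 1 / s 0) (F j i) := fun a => by
    rw [hF, pv_div (T.hom a)]
    exact mul_eq_zero_of_right _ (Syz.aeval_eqn hT a)
  have h0 : ∀ i, ((F false i).map (q.hom : q.O →+* κ)).coeff 0 = q.π (P.y i / P.y i₀) := fun i =>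
    (coeff_map _ _).trans (congrArg _ coeff_C_zero)
  have h1 : q.π (P.y i₀ / P.y i₀) = 1 := by rw [div_self (P.y_ne _), q.π_one]
  have h2 : ∀ (a : Fin 2) (p : q.O[X]), aeval (s 1 / s 0) p = s a / s 0 →
      ∃ r : Fin (g.M + 1) → κ, ∑ j, C (r j) * (R j).map (q.hom : q.O →+* κ) =
        p.map (q.hom : q.O →+* κ) := fun a p hp => by
    obtain ⟨r, h3, h4⟩ := Gens.inI_s (G := g) ha hi a
    have h5 := red_zero hc q.hom hr (P := ∑ j, C ⟨r j, hx (h3 j)⟩ * R j - p) (by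
      rw [map_sub, hp, h4, map_sum, Finset.sum_div, sub_eq_zero]
      refine Finset.sum_congr rfl fun j _ => ?_
      rw [map_mul, aeval_C, Gens.g, hR2, mul_div_assoc, mul_div_cancel_left₀ _ hs0]
      rfl)
    rw [Polynomial.map_sub, sub_eq_zero, Polynomial.map_sum] at h5
    exact ⟨_, by simpa only [Polynomial.map_mul, map_C] using h5⟩
  refine ⟨fun j i => (F j i).map (q.hom : q.O →+* κ),
    ⟨⟨fun j i => natDegree_map_le.trans (hdeg j i), ?_, ?_⟩, d1, ?_,
      fun a => pf_red hc q.hom hr (hon a), top_unique fun z _ => ?_, ?_, fun j hj => ?_,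
      fun Q k hQ h3 E _ _ z hz => sw h hT d0 (d1 ▸ one_ne_zero) hv (i₀ := i₀) (hv.v_s hs 0) hQ
        ?_ hz⟩, ?_⟩
  · rintro (_ | _)
    · exact ⟨i₀, d0 ▸ ((h0 i₀).trans h1).trans_ne one_ne_zero⟩
    · obtain ⟨r, h3⟩ := h2 1 X (aeval_X _)
      have h4 := congrArg (coeff · 1) h3
      simp only [finsetSum_coeff, coeff_C_mul, map_X, coeff_X_one] at h4
      obtain ⟨j, -, hj⟩ := Finset.exists_ne_zero_of_sum_ne_zero (h4 ▸ one_ne_zero)
      exact ⟨j, d1 ▸ right_ne_zero_of_mul hj⟩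
  · rintro (_ | _)
    · refine (Ideal.eq_top_iff_one _).2 (Ideal.subset_span ⟨i₀, ?_⟩)
      exact (map_C _).trans ((congrArg C h1).trans C_1)
    · obtain ⟨r, h3⟩ := h2 0 1 (by rw [map_one, div_self hs0])
      exact (Ideal.eq_top_iff_one _).2 (Ideal.mem_span_range_iff_exists_fun.2
        ⟨_, h3.trans (Polynomial.map_one _)⟩)
  · rintro (_ | _) hj
    exacts [d0, absurd ν1 hj]
  · have h3 : ∀ a ∈ P.A i₀, q.π a ∈ bas ν fun j i =>
        ((F j i).map (q.hom : q.O →+* κ)).coeff 0 := fun a ha => by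
      obtain ⟨r, rfl⟩ := exists_poly ha
      rw [(Plc.π_aeval (fun i => hA (div_mem_chart P.y i₀ i)) r).2]
      refine aeval_mem (S := IntermediateField.toSubalgebra _) (fun i => ?_) r
      exact IntermediateField.subset_adjoin _ _ ⟨false, i, i₀, ν0 ▸ two_ne_zero,
        (div_one _).symm.trans (congrArg₂ (· / ·) (h0 i) ((h0 i₀).trans h1)).symm⟩
    obtain ⟨a, ha, rfl⟩ := h.surj z
    obtain ⟨b, hb, c, hc, h4, h5⟩ := h.loc_A hA ha
    rw [eq_div_of_mul_eq h4 ((q.π_mul ha (hA hc)).symm.trans (congrArg q.π h5))]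
    exact div_mem (h3 b hb) (h3 c hc)
  · rw [hd, Fintype.sum_bool, ν0, ν1]
  · cases j
    · exact (dim_qf_le (al := AlgHom.id ℂ κ) fun _ _ => ⟨_, rfl⟩).trans (hd.trans ν0.symm).le
    · exact absurd ν1 hj
  · rw [← hF, pv_aeval]
    refine v_aeval_lt hv ?_ ((pf_map _ _ _).symm.trans h3)
    rw [map_div₀, hv.v_s hs, hv.v_s hs, div_self exp_ne_zero]
  · obtain ⟨b, hb, c, hc', h4, h5⟩ := h.loc_A hA (hs.mem 0)
    obtain ⟨Q, k, hQ, h6⟩ := exists_mh (fun j i => y2 g j i / n2 g i₀ (s 0) j) (j := false)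
      (i₀ := i₀) (div_self (P.y_ne _)) hb
    exact tan_of_coords hc q.hom hr hdeg hon hQ (w := C ⟨c, hA hc'⟩)
      (by rw [hF, h6, aeval_C, ← h5]; rfl) (by rw [map_C]; exact C_ne_zero.2 h4)

variable {C : Coh.Th} {B : Hb.Th}

/-- **the invariant of the exceptional line** -/
theorem nume (V : Vir C B) (hN : NumEStmt) : NUME V.gw := by
  intro K κ _ _ _ _ P q h g r e n c m
  have : Algebra.EssFiniteType ℂ κ := Coh.instEssFiniteTypeComplexF (sv h.model)
  obtain ⟨f, h1, h2⟩ := exists_line (T := m.tgt) (d := Finsupp.single true 1) h m.tgt_isEq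
    (by simp) (by simp) (ν := Pi.single false 2) (by simp) (by simp)
  obtain ⟨β⟩ := h.exists_basis
  have h3 := (V.gen _ m.toPre).dm
  rw [show dim ℂ (sv (g.bl h)).F = 4 from
    (Module.finrank_eq_card_basis β).trans (Fintype.card_fin _)] at h3
  have h4 := hN B V.hB m.tgt _ _ _ true f (V.good m _) h1
    (by rw [← h3, Fintype.sum_bool]; simp) h2 (0 : Fin 3) (Fintype.card_fin 3)
  rw [← itg_lin V m, Fintype.prod_bool] at h4
  simpa using h4

end Crest.Agent.X262.EndsCl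
end
end

-- ▼ part X262/EndsCl/Lin
section

/-!
# Row 262, road B, ENDS-CL (helper50), part 3: the general fibre of the master space

* `qf_model`, `rt_of_isRF`, `mem_of_isPF` : generators of the function fields;
* `numl` : `Gwb.NumStmt` for the instance and `Ms2.Full`.
-/

set_option autoImplicit false
set_option linter.unusedSectionVars false

noncomputable section

namespace Crest.Agent.X262.EndsCl

open Crest.Agent.X277 Crest.Agent.X277.Lef Crest.Agent.X277.AN.G1 Crest.Agent.X277.BD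
  Crest.Agent.R274.Prod1_134
open Crest.Agent.X277.Cns (IsRF evp)
open Crest.Agent.X262.Coh Crest.Agent.X262.Vb Crest.Agent.X262.Gwb Crest.Agent.X262.Ends
open Crest.Agent.X262.EndsMk
open Polynomial

section Fld

variable {F F' K L : Type} [Field F] [Algebra ℂ F] [Field F'] [Algebra ℂ F'] [Field K] [Algebra ℂ K]
  [Field L] [Algebra ℂ L]

theorem qf_model (P : PModel ℂ F) (α : F →ₐ[ℂ] L) :
    (qf ℂ fun i => α (P.y i)) = α.fieldRange := by
  refine le_antisymm (IntermediateField.adjoin_le_iff.2 ?_) ?_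
  · rintro _ ⟨i, j, rfl⟩
    exact ⟨P.y j / P.y i, map_div₀ α _ _⟩
  · have h1 : P.A 0 ≤ ((qf ℂ fun i => α (P.y i)).comap α).toSubalgebra :=
      Algebra.adjoin_le (Set.range_subset_iff.2 fun j => by
        change α (P.y j / P.y 0) ∈ qf ℂ fun i => α (P.y i)
        rw [map_div₀]
        exact div_mem_qf _ _ _)
    rintro _ ⟨f, rfl⟩
    obtain ⟨a, ha, c, hc, -, rfl⟩ := P.frac' 0 f
    change α (a / c) ∈ _
    rw [map_div₀]
    exact div_mem (show α a ∈ _ from h1 ha) (show α c ∈ _ from h1 hc)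

theorem rt_of_isRF {ρ : K →ₐ[ℂ] L} {t : L} (h : IsRF ρ t) : Rt ρ t := by
  have h1 : ∀ p, evp ρ t p ∈ IntermediateField.adjoin ℂ (Set.range ρ ∪ {t}) := fun p => by
    rw [Cns.evp_eq_sum_support]
    exact sum_mem fun j _ => mul_mem (IntermediateField.subset_adjoin _ _ (Or.inl ⟨_, rfl⟩))
      (pow_mem (IntermediateField.subset_adjoin ℂ (Set.range ρ ∪ {t}) (Or.inr rfl)) j)
  refine ⟨fun g hg => h.inj (hg.trans (map_zero _).symm), top_unique fun x _ => ?_⟩
  obtain ⟨p, q, rfl⟩ := h.frac x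
  exact div_mem (h1 p) (h1 q)

theorem mem_of_isPF {α : F →ₐ[ℂ] K} {β : F' →ₐ[ℂ] K} (h : IsPF α β) {S : IntermediateField ℂ K}
    (h1 : ∀ a, α a ∈ S) (h2 : ∀ b, β b ∈ S) (x : K) : x ∈ S := by
  have h3 : (Algebra.TensorProduct.productMap α β).range ≤ S.toSubalgebra := by
    rw [Algebra.TensorProduct.productMap_range]
    exact sup_le (by rintro _ ⟨a, rfl⟩; exact h1 a) (by rintro _ ⟨b, rfl⟩; exact h2 b)
  obtain ⟨a, ha, b, hb, -, rfl⟩ := h.frac x
  exact div_mem (show a ∈ S from h3 ha) (show b ∈ S from h3 hb)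

theorem exists_G {ρ : K →ₐ[ℂ] L} {t : L} (h : Rt ρ t) {ι : Type} [Fintype ι] [DecidableEq ι]
    {a b : ι → K} (i₀ : ι) (h0 : a i₀ * b i₀ ≠ 0) {τ : Tup L}
    (hτ : τ = ⟨Option ι, fun o => o.elim t fun k => ρ (a k) * ρ (b k)⟩) :
    ∃ g : τ.io → K[X], (∀ i, τ.y i = 1 * aevalTower ρ t (g i)) ∧ (∀ i, (g i).natDegree ≤ 1) ∧
      ∃ i i', τ.y i / τ.y i' ∉ Set.range ρ := by
  subst hτ
  refine ⟨fun o => o.elim X fun k => C (a k * b k), ?_, ?_, none, some i₀, ?_⟩
  · rintro (_ | k) <;> simp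
  · rintro (_ | k)
    exacts [natDegree_X_le, (natDegree_C _).le.trans zero_le_one]
  · rintro ⟨c, hc⟩
    change ρ c = t / (ρ (a i₀) * ρ (b i₀)) at hc
    rw [← map_mul, eq_div_iff ((map_ne_zero ρ).2 h0), ← map_mul] at hc
    exact X_sub_C_ne_zero _ (h.inj _ (by rw [map_sub, aevalTower_X, aevalTower_C, hc, sub_self]))

end Fld

variable {C : Coh.Th} {B : Hb.Th}

theorem prod_dg (hM : C.MAN) {Y : SV} (m : Pre Y) (ν : m.J → ℕ) (S : Finset m.J) :
    ∏ j ∈ S, m.h C j ^ ν j ∈ C.dg Y (∑ j ∈ S, ν j) := by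
  induction S using Finset.cons_induction with
  | empty => simpa using hM.dg_one Y
  | cons j S hj ih =>
    rw [Finset.prod_cons, Finset.sum_cons]
    exact hM.dg_mul Y (by simpa using hM.dg_pow (hM.c1_dg Y _ (m.reg j).2) (ν j)) ih

/-- **the number of the general fibre** -/
theorem numl (V : Vir C B) (hN : NumLStmt) : Gwb.NumStmt V.gw Ms2.Full := by
  rintro K _ _ s hs m₁ r M ⟨e⟩
  have : Algebra.EssFiniteType ℂ K := Coh.instEssFiniteTypeComplexF (sv s.Y)
  have : Algebra.EssFiniteType ℂ (PF ℂ K M.S.F) :=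
    Coh.instEssFiniteTypeComplexF ((sv s.Y).prod M.S)
  have hr := rt_of_isRF e.rf
  have hA : qf ℂ (M.m.y M.jA) = _ :=
    (congrArg (fun τ : Tup M.B.F => qf ℂ τ.y) e.TA).trans (qf_model s.Y (e.ρ.comp (pα ℂ K M.S.F)))
  have hS : qf ℂ (M.m.y M.jS) = _ :=
    (congrArg (fun τ : Tup M.B.F => qf ℂ τ.y) e.TS).trans (qf_model M.S.P (e.ρ.comp (pβ ℂ K M.S.F)))
  have hS0 : M.S.dim ≠ 0 := by
    have h1 : Nontrivial (Fin (M.S.P.N + 1)) :=
      cast (congrArg (fun τ : Tup M.B.F => Nontrivial τ.io) e.TS) (M.m.nt M.jS)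
    have h2 := Fin.nontrivial_iff_two_le.1 h1
    rw [Ms2.dim_proj M.projS]
    omega
  let ν : M.m.J → ℕ := Pi.single M.jA 4 + Pi.single M.jS M.S.dim
  have νA : ν M.jA = 4 := by simp [ν, e.AS]
  have νS : ν M.jS = M.S.dim := by simp [ν, e.AS.symm]
  have ν0 : ∀ j, ν j ≠ 0 → j = M.jA ∨ j = M.jS := fun j hj => by_contra fun h => hj (by
    simp [ν, (not_or.1 h).1, (not_or.1 h).2])
  have hq : ∀ j, ν j ≠ 0 → qf ℂ (M.m.y j) ≤ bas ν M.m.y := fun j hj =>
    IntermediateField.adjoin.mono _ _ _ (by rintro _ ⟨i, i', rfl⟩; exact ⟨j, i', i, hj, rfl⟩)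
  have hd : dim ℂ (PF ℂ K M.S.F) = ∑ j, ν j := by
    have := finite_kaehler s.Y
    have := finite_kaehler M.S.P
    rw [dim, (Cns.finrank_pf (isPF ℂ K M.S.F)).2, show Module.finrank K _ = 4 from hs.dim]
    simp [ν, Finset.sum_add_distrib]
  obtain ⟨g, g1, g2, g3⟩ := exists_G hr (a := fun _ => pα ℂ K M.S.F s.gp)
    (b := fun k => pβ ℂ K M.S.F (M.S.P.y k)) 0 (mul_ne_zero ((_root_.map_ne_zero _).2 s.gp_mem.1)
      ((_root_.map_ne_zero _).2 (M.S.P.y_ne 0))) e.TG
  obtain ⟨d, f, -, hL, hc⟩ := line_of_gen (ν := ν) (j₁ := M.jG) (V.gen _ M.m.toPre) hr g1 g2 g3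
    (fun j hj i i' => by
      have h1 := div_mem_qf (k := ℂ) (M.m.y j) i' i
      rcases ν0 j hj with rfl | rfl
      · obtain ⟨x, hx⟩ := hA ▸ h1
        exact ⟨_, hx⟩
      · obtain ⟨x, hx⟩ := hS ▸ h1
        exact ⟨_, hx⟩)
    (fun x => mem_of_isPF (isPF ℂ K M.S.F) (S := (bas ν M.m.y).comap e.ρ)
      (fun a => hq _ (νA ▸ four_ne_zero) (hA ▸ ⟨a, rfl⟩))
      (fun b => hq _ (νS ▸ hS0) (hS ▸ ⟨b, rfl⟩)) x) hd fun j hj => by
      rcases ν0 j hj with rfl | rfl
      · rw [hA, νA, ← hs.dim]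
        exact dim_sub_le _ fun _ h => h
      · rw [hS, νS]
        exact dim_sub_le _ fun _ h => h
  refine ⟨Finsupp.equivFunOnFinite.symm d, hL.zero _ (νA ▸ four_ne_zero), hL.zero _ (νS ▸ hS0),
    hL.one, (∏ j, M.m.h C j ^ ν j) * M.G C, ?_, ?_⟩
  · rw [SV.dim, hr.dim, hd]
    exact V.man.dg_mul _ (prod_dg V.man _ ν _) (V.man.c1_dg _ _ (M.m.reg _).2)
  · rw [itg_lin V M.m]
    exact hN B V.hB M.m.tgt _ d ν M.jG f (V.good M.m d) hL hc (0 : Fin 3) (Fintype.card_fin 3)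

end Crest.Agent.X262.EndsCl
end
end

-- ▼ part X262/EndsRk/Det
section

/-!
# Row 262, road B, ENDS-RK (helper82), part 1: the degree of a quotient bundle on `P^1`

* `deg_le_of_ker` : sections of the kernel of a surjection `⊕ O(d v) → ⊕ O(α i)` which are
  generically a basis and dependent at infinity bound `∑ α`;
* `Split.deg_le`  : the same for the range of a polynomial matrix.
-/

set_option autoImplicit false
set_option linter.unusedSectionVars false

namespace Crest.Agent.X262.EndsRk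

open Polynomial Matrix Crest.Agent.X262.Tree87

variable {k : Type*} [Field k] {ι κ μ : Type*} [Fintype ι] [Fintype κ] [Fintype μ]

theorem ev_det' [DecidableEq κ] (A : Matrix κ κ k[X]) (a b : κ → ℤ) (h : DM a b A) :
    DL (∑ i, a i - ∑ j, b j) A.det ∧ ∀ p,
      ev (∑ i, a i - ∑ j, b j) p A.det = (evM a b p A).det := by
  let ε := (Fintype.equivFin κ).symm
  have h1 := ev_det (A.submatrix ε ε) (fun i => a (ε i)) (fun i => -b (ε i))
    fun i j => by simpa only [sub_eq_add_neg, submatrix_apply] using h (ε i) (ε j)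
  rw [det_submatrix_equiv_self, Finset.sum_neg_distrib, ε.sum_comp a, ε.sum_comp b,
    ← sub_eq_add_neg] at h1
  refine ⟨h1.1, fun p => (h1.2 p).trans ?_⟩
  rw [← det_submatrix_equiv_self ε (evM a b p A)]
  simp only [← sub_eq_add_neg]
  rfl

theorem evM_mul {a : κ → ℤ} {b : ι → ℤ} {c : μ → ℤ} {A : Matrix κ ι k[X]} {B : Matrix ι μ k[X]}
    (hA : DM a b A) (hB : DM b c B) :
    DM a c (A * B) ∧ ∀ p, evM a c p (A * B) = evM a b p A * evM b c p B := by
  have h1 : ∀ i v j, a i - c j = a i - b v + (b v - c j) := fun i v j => by ring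
  refine ⟨fun i j => DL.sum fun v _ => h1 i v j ▸ (hA i v).mul (hB v j), fun p => ?_⟩
  ext i j
  simp only [evM, mul_apply, map_sum]
  exact Finset.sum_congr rfl fun v _ => h1 i v j ▸ ev_mul (hA i v) (hB v j) p

theorem exists_compl [DecidableEq κ] [DecidableEq μ] (ε : κ ⊕ μ ≃ ι) {Q : Matrix μ ι k}
    (h : Function.Surjective Q.mulVecLin) :
    ∃ Y : Matrix κ ι k, ((fromRows Y Q).submatrix id ε).det ≠ 0 := by
  classical
  have h1 := Q.mulVecLin.finrank_range_add_finrank_ker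
  rw [LinearMap.range_eq_top.2 h, finrank_top, Module.finrank_fintype_fun_eq_card,
    Module.finrank_fintype_fun_eq_card, ← Fintype.card_congr ε, Fintype.card_sum] at h1
  obtain ⟨g, hg⟩ := (LinearMap.ker Q.mulVecLin).subtype.exists_leftInverse_of_injective
    (Submodule.ker_subtype _)
  let e : LinearMap.ker Q.mulVecLin ≃ₗ[k] (κ → k) := LinearEquiv.ofFinrankEq _ _ (by
    rw [Module.finrank_fintype_fun_eq_card]
    omega)
  refine ⟨LinearMap.toMatrix' (e.toLinearMap ∘ₗ g), fun h2 => ?_⟩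
  obtain ⟨v, hv, h3⟩ := exists_mulVec_eq_zero_iff.2 h2
  rw [submatrix_mulVec_equiv, fromRows_mulVec] at h3
  have h4 : v ∘ ε.symm ∈ LinearMap.ker Q.mulVecLin := funext fun i => congrFun h3 (.inr i)
  have h5 : e (g (v ∘ ε.symm)) = 0 := by
    rw [← LinearEquiv.coe_coe, ← LinearMap.comp_apply, ← LinearMap.toMatrix'_mulVec]
    exact funext fun i => congrFun h3 (.inl i)
  have h6 := LinearMap.congr_fun hg ⟨_, h4⟩
  rw [LinearMap.comp_apply, Submodule.subtype_apply, e.map_eq_zero_iff.1 h5] at h6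
  exact hv (funext fun i => by simpa using (congrFun (congrArg Subtype.val h6) (ε i)).symm)

theorem natDegree_le_of [IsAlgClosed k] {a b : k[X]} (ha : a ≠ 0) (hb : b ≠ 0)
    (h : ∀ z : k, ∃ w : k[X], w.eval z ≠ 0 ∧ b ∣ w * a) : b.natDegree ≤ a.natDegree := by
  classical
  obtain ⟨a', b', h1, h2, h3⟩ := extract_gcd a b
  have h4 : gcd a b ≠ 0 := left_ne_zero_of_mul (h1 ▸ ha)
  have h5 : b'.degree = 0 := by
    by_contra h5
    obtain ⟨z, hz⟩ := IsAlgClosed.exists_root b' h5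
    obtain ⟨w, h6, h7⟩ := h z
    rw [h2, show w * a = gcd a b * (w * a') by rw [mul_left_comm, ← h1],
      mul_dvd_mul_iff_left h4] at h7
    obtain ⟨q, rfl⟩ := ((gcd_isUnit_iff _ _).1 h3).symm.dvd_of_dvd_mul_right h7
    exact h6 (by rw [eval_mul, hz.eq_zero, zero_mul])
  rw [h2, natDegree_mul h4 (right_ne_zero_of_mul (h2 ▸ hb)), natDegree_eq_of_degree_eq_some h5]
  exact natDegree_le_of_dvd (gcd_dvd_left a b) ha

theorem exists_right [DecidableEq μ] {Q : Matrix μ ι k[X]} {α : μ → ℤ} {d : ι → ℤ}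
    (hs : Function.Surjective (evM α d (some 0) Q).mulVecLin) :
    ∃ U : Matrix ι μ k[X], (Q * U).det ≠ 0 := by
  classical
  obtain ⟨g, hg⟩ := (evM α d (some 0) Q).mulVecLin.exists_rightInverse_of_surjective
    (LinearMap.range_eq_top.2 hs)
  refine ⟨(LinearMap.toMatrix' g).map C, fun h => ?_⟩
  have h1 := congrArg (evalRingHom 0) h
  have h2 : (evalRingHom 0).mapMatrix (Q * (LinearMap.toMatrix' g).map C) =
      evM α d (some 0) Q * LinearMap.toMatrix' g := by
    ext i j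
    simp [mul_apply, evM, eval_finsetSum]
  rw [RingHom.map_det, h2, ← LinearMap.toMatrix'_toLin' (evM α d (some 0) Q),
    ← LinearMap.toMatrix'_comp, toLin'_apply', hg, LinearMap.toMatrix'_id, det_one, map_zero] at h1
  exact one_ne_zero h1

theorem det_cols_ne [DecidableEq κ] [DecidableEq μ] [DecidableEq ι] (ε : ι ≃ κ ⊕ μ)
    {Q : Matrix μ ι k[X]} {U : Matrix ι μ k[X]} (hb : (Q * U).det ≠ 0) {τ : κ → ι → k[X]}
    (hQT : Q * (Matrix.of τ)ᵀ = 0) (hi : LinearIndependent k[X] τ) :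
    ((fromCols (Matrix.of τ)ᵀ U).submatrix ε.symm id).det ≠ 0 := fun h => by
  obtain ⟨v, hv, h1⟩ := exists_mulVec_eq_zero_iff.2 h
  have h2 : fromCols (Matrix.of τ)ᵀ U *ᵥ v = 0 := funext fun i => by
    simpa [mulVec] using congrFun h1 (ε i)
  rw [fromCols_mulVec] at h2
  have h3 := congrArg (Q *ᵥ ·) h2
  simp only [mulVec_add, mulVec_mulVec, hQT, zero_mulVec, zero_add, mulVec_zero] at h3
  have h4 := eq_zero_of_mulVec_eq_zero hb h3
  rw [h4, mulVec_zero, add_zero] at h2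
  have h5 := Fintype.linearIndependent_iff.1 hi (v ∘ .inl) (funext fun i => by
    simpa [mulVec, dotProduct, mul_comm] using congrFun h2 i)
  exact hv (funext fun i => i.rec h5 (congrFun h4))

theorem det_key [DecidableEq κ] [DecidableEq μ] [DecidableEq ι] (ε : κ ⊕ μ ≃ ι)
    {Q : Matrix μ ι k[X]} (U : Matrix ι μ k[X]) {T : Matrix ι κ k[X]} (hQT : Q * T = 0)
    (Y : Matrix κ ι k[X]) : ((fromRows Y Q).submatrix id ε).det *
      ((fromCols T U).submatrix ε id).det = (Y * T).det * (Q * U).det := by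
  rw [← det_mul, submatrix_mul_equiv, submatrix_id_id, fromRows_mul_fromCols, hQT,
    det_fromBlocks_zero₂₁]

theorem exists_rows [DecidableEq κ] [DecidableEq μ] (ε : κ ⊕ μ ≃ ι) {Q : Matrix μ ι k[X]}
    {α : μ → ℤ} {d : ι → ℤ} (hQ : DM α d Q) {B : ℤ} (hB : ∀ v, d v ≤ B) (p : Option k)
    (hs : Function.Surjective (evM α d p Q).mulVecLin) :
    ∃ Y : Matrix κ ι k[X], DM (fun _ => B) d Y ∧
      DL (∑ _i : κ, B + ∑ i, α i - ∑ v, d v) ((fromRows Y Q).submatrix id ε).det ∧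
      ev (∑ _i : κ, B + ∑ i, α i - ∑ v, d v) p ((fromRows Y Q).submatrix id ε).det ≠ 0 := by
  obtain ⟨Y0, h1⟩ := exists_compl ε hs
  choose q h2 h3 using fun v => exists_ev_eq_one (k := k) (sub_nonneg.2 (hB v)) p
  have h4 : DM (fun _ => B) d (Matrix.of fun i v => Y0 i v • q v) := fun i v => (h2 v).smul _
  have h5 := ev_det' ((fromRows (Matrix.of fun i v => Y0 i v • q v) Q).submatrix id ε)
    (Sum.elim (fun _ => B) α) (fun j => d (ε j)) fun i j => i.rec (fun i => h4 i _) fun i => hQ i _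
  rw [Fintype.sum_sumElim, ε.sum_comp d] at h5
  refine ⟨_, h4, h5.1, ?_⟩
  rw [h5.2]
  convert h1 using 2
  ext (i | i) j
  · simp [evM, h3]
  · rfl

theorem arith {n₁ n₂ n₃ n₄ : ℕ} {s a d l : ℤ} (h6 : s + a - d ≤ n₁) (h10 : (n₃ : ℤ) ≤ s - -l - 1)
    (h11 : n₁ + n₂ = n₃ + n₄) (h1 : n₄ ≤ n₂) : a + 1 ≤ d + l := by omega

/-- **the degree of a quotient** -/
theorem deg_le_of_ker [IsAlgClosed k] {Q : Matrix μ ι k[X]} {α : μ → ℤ} {d : ι → ℤ} (hQ : DM α d Q)
    (hs : ∀ p, Function.Surjective (evM α d p Q).mulVecLin) {τ : κ → ι → k[X]} {l : κ → ℤ}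
    (hτ : ∀ i v, DL (l i + d v) (τ i v)) (h0 : ∀ i, Q.mulVec (τ i) = 0)
    (hc : Fintype.card κ + Fintype.card μ = Fintype.card ι) (hi : LinearIndependent k[X] τ)
    {x : κ → k} (hx : x ≠ 0) (hx' : ∀ v, ∑ i, ev (l i + d v) none (τ i v) * x i = 0) :
    ∑ i, α i + 1 ≤ ∑ v, d v + ∑ i, l i := by
  classical
  obtain ⟨ε⟩ : Nonempty (κ ⊕ μ ≃ ι) := Fintype.card_eq.1 (by rw [Fintype.card_sum, hc])
  obtain ⟨B, hB⟩ := exists_bound d
  have hT : DM d (fun i => -l i) (Matrix.of τ)ᵀ := fun v i => by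
    rw [sub_neg_eq_add, add_comm]
    exact hτ i v
  have hQT : Q * (Matrix.of τ)ᵀ = 0 := by
    ext1 i j
    exact congrFun (h0 j) i
  obtain ⟨U, hb⟩ := exists_right (hs (some 0))
  have ha := det_cols_ne ε.symm hb hQT hi
  rw [Equiv.symm_symm] at ha
  have key := det_key ε U hQT
  have h1 := natDegree_le_of ha hb fun z => by
    obtain ⟨Y, -, -, h1⟩ := exists_rows ε hQ hB (some z) (hs _)
    exact ⟨_, by rwa [ev_some] at h1, _, (key Y).trans (mul_comm _ _)⟩
  obtain ⟨Y, h2, h3, h4⟩ := exists_rows ε hQ hB none (hs _)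
  have h5 : ((fromRows Y Q).submatrix id ε).det ≠ 0 := fun h => h4 (by rw [h, map_zero])
  have h6 : ∑ _i : κ, (B : ℤ) + ∑ i, α i - ∑ v, d v ≤
      ((fromRows Y Q).submatrix id ε).det.natDegree :=
    not_lt.1 fun h => h4 ((DL_natDegree _).ev_none_eq_zero h)
  have h7 : (Y * (Matrix.of τ)ᵀ).det ≠ 0 := left_ne_zero_of_mul ((key Y).symm.trans_ne (mul_ne_zero h5 ha))
  obtain ⟨h8, h9⟩ := ev_det' (Y * (Matrix.of τ)ᵀ) _ _ (evM_mul h2 hT).1
  have h10 := (h8.pred (by
    rw [h9, (evM_mul h2 hT).2, ← exists_mulVec_eq_zero_iff]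
    refine ⟨x, hx, ?_⟩
    rw [← mulVec_mulVec, show evM d (fun i => -l i) none (Matrix.of τ)ᵀ *ᵥ x = 0 from
      funext fun v => by simpa [evM, mulVec, dotProduct, add_comm] using hx' v,
      mulVec_zero])).natDegree_le h7
  have h11 := congrArg natDegree (key Y)
  rw [natDegree_mul h5 ha, natDegree_mul h7 hb] at h11
  rw [Finset.sum_neg_distrib] at h10
  exact arith h6 h10 h11 h1

/-- the degree of the range of a polynomial matrix -/
theorem deg_le_of_split [IsAlgClosed k] {A : Type*} {M : Matrix A ι k[X]} {e : A → ℤ} {d : ι → ℤ}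
    (hM : DM e d M) {c : ℕ} (S : Split e (Rg M e d) c) {τ : κ → ι → k[X]} {l : κ → ℤ}
    (hτ : ∀ i v, DL (l i + d v) (τ i v)) (h0 : ∀ i, M.mulVec (τ i) = 0)
    (hc : Fintype.card κ + c = Fintype.card ι) (hi : LinearIndependent k[X] τ)
    {x : κ → k} (hx : x ≠ 0) (hx' : ∀ v, ∑ i, ev (l i + d v) none (τ i v) * x i = 0) :
    ∑ i, S.α i + 1 ≤ ∑ v, d v + ∑ i, l i := by
  classical
  have h1 : ∀ v p, evv (tw e (-d v)) p (fun a => M a v) = fun a => evM e d p M a v := fun v p =>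
    funext fun a => by simp only [evv_apply, tw_apply, evM, neg_add_eq_sub]
  choose q hq h2 using fun v => S.gen (-d v) (fun a => M a v) (mem_Sec.2
    ⟨fun a => by rw [tw_apply, neg_add_eq_sub]; exact hM a v, fun p => by
      rw [h1]
      exact mem_Rg.2 ⟨Pi.single v 1, by rw [mulVec_single_one]; rfl⟩⟩)
  have h3 : ∀ p (u : ι → k), evM e d p M *ᵥ u = ∑ i,
      (evM S.α d p (Matrix.of q)ᵀ *ᵥ u) i • evv (tw e (-S.α i)) p (S.m i) := fun p u => by
    have h3 : ∀ v a, evM e d p M a v =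
        ∑ i, ev (S.α i - d v) p (q v i) * evv (tw e (-S.α i)) p (S.m i) a := fun v a => by
      rw [← congrFun (h1 v p) a, h2, map_sum, Finset.sum_apply]
      exact Finset.sum_congr rfl fun i _ => by
        rw [(evv_term (S.deg i) (hq v i)).2, neg_add_eq_sub]
        rfl
    funext a
    simp only [mulVec, dotProduct, h3, Finset.sum_apply, Pi.smul_apply, smul_eq_mul,
      Finset.sum_mul]
    rw [Finset.sum_comm]
    exact Finset.sum_congr rfl fun i _ => Finset.sum_congr rfl fun v _ => mul_right_comm _ _ _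
  refine deg_le_of_ker (Q := (Matrix.of q)ᵀ) (fun i v => neg_add_eq_sub (d v) _ ▸ hq v i)
    (fun p w => ?_) hτ (fun j => funext (S.eq_zero_of_sum ?_)) (by simpa using hc) hi hx hx'
  · obtain ⟨u, hu⟩ := mem_Rg.1 (S.sp p ▸ Submodule.sum_mem _ fun i _ => Submodule.smul_mem _ (w i)
      (Submodule.subset_span ⟨i, rfl⟩) : ∑ i, w i • evv (tw e (-S.α i)) p (S.m i) ∈ Rg M e d p)
    exact ⟨u, funext (Fintype.linearIndependent_iffₛ.1 (S.li p) _ _ ((h3 p u).symm.trans hu))⟩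
  · rw [← h0 j]
    funext a
    simp only [mulVec, dotProduct, fun v => congrFun (h2 v) a, Finset.sum_apply, Pi.smul_apply,
      smul_eq_mul, Finset.sum_mul]
    rw [Finset.sum_comm]
    exact Finset.sum_congr rfl fun v _ => Finset.sum_congr rfl fun i _ => mul_right_comm _ _ _

end Crest.Agent.X262.EndsRk
end

-- ▼ part X262/EndsRk/Main
section

/-!
# Row 262, road B, ENDS-RK (helper82), part 2: the rank of the obstruction space along a line

* `core`        : independent sections of the kernel of the Jacobian bound `h^0` of the normal bundle;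
* `tv`          : the sections: motion of the line, Euler vectors, the tangent vector;
* `rkL`, `rkE`  : `Ends.RkLStmt`, `Ends.RkEStmt`.
-/

set_option autoImplicit false
set_option linter.unusedSectionVars false

noncomputable section

namespace Crest.Agent.X262.EndsRk

open Polynomial Crest.Agent.X277 Crest.Agent.X277.BD Crest.Agent.X262.Vb Crest.Agent.X262.Tree87
  Crest.Agent.X262.Ends
open Crest.Agent.X262.Bub96 (hv Tr)
open Crest.Agent.X262.Bub96.Tr (dot)

variable {J : Type} [Fintype J] [DecidableEq J] {io : J → Type} [∀ j, Fintype (io j)]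
  [∀ j, DecidableEq (io j)] {A : Type} [Fintype A] {K E : Type} [Field K] [Algebra ℂ K]
  [Field E] [Algebra ℂ E] {d : J → ℕ} {g : (j : J) → io j → E[X]}

theorem ok_leaf (h : Cp d g) : (Tr.leaf d g).OK := by
  refine ⟨h.1, fun j x => ?_⟩
  rcases x with _ | x
  · exact h.2.1 j
  · by_contra h1
    push Not at h1
    have h2 : Ideal.span (Set.range (g j)) ≤ RingHom.ker (evalRingHom x) :=
      Ideal.span_le.2 (Set.range_subset_iff.2 h1)
    rw [h.2.2 j] at h2
    simpa using h2 (Submodule.mem_top (x := 1))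

theorem core [IsAlgClosed E] {T : Tgt io A} {c : ℕ} (hG : Good T c d) (cp : Cp d g)
    (on : ∀ a, pf g (T.F a) = 0) {κ : Type} [Fintype κ] {τ : κ → Vr io → E[X]} {l : κ → ℤ}
    (hτ : ∀ i v, DL (l i + d v.1) (τ i v))
    (h0 : ∀ i a, ∑ v, pf g (MvPolynomial.pderiv v (T.F a)) * τ i v = 0)
    (hc : Fintype.card κ + c = Fintype.card (Vr io)) (hi : LinearIndependent E[X] τ)
    {x : κ → E} (hx : x ≠ 0) (hx' : ∀ v, ∑ i, ev (l i + d v.1) none (τ i v) * x i = 0) :
    (Module.finrank E (nsec T d g) : ℤ) + 1 ≤ c + ∑ v : Vr io, (d v.1 : ℤ) + ∑ i, l i := by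
  obtain ⟨-, S, hS⟩ := hG
  have ok := ok_leaf cp
  have hO : ∀ x, T.On ((Tr.leaf d g).ev x) := fun x a => by
    rw [← (isSec_sb (T.hom a) ok).2 x]
    change hv _ (pf g (T.F a)) _ = 0
    rw [on]
    rcases x with ⟨_, _ | x⟩ <;> simp [hv]
  have hR := hS E _ ok rfl hO
  have h1 : ∀ x, LinearMap.ker (pM S.ρ ((Tr.leaf d g).ev x)).mulVecLin =
      pR (jacP T) ((Tr.leaf d g).ev x) := fun x => by rw [ker_eq_Nm S (hO x) (hR x), Nm_eq]
  have hJ := hm_sb (hz_jac T) ok
  have h2 := (hm_sb (hz_syz S) ok).exists_split (c := c)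
    (VG_congr (N := pR (jacP T)) (fun x => (h1 x).symm) hJ.vg_range)
    (fun x => (congrArg (fun U : Submodule E (A → E) => Module.finrank E U)
      (ker_eq_Nm S (hO x) (hR x))).trans (hR x).1) ()
  have h3 : vdz (fun v : Vr io => Pi.single v.1 1) (Tr.leaf d g) () = fun v => (d v.1 : ℤ) :=
    funext fun v => by simp [vdz, dot, Tr.vd, Pi.single_apply]
  have h4 := hJ.rg_eq ()
  have h5 := (hJ ()).1
  rw [h3] at h4 h5
  have h6 : (fun p => LinearMap.ker (pM S.ρ ((Tr.leaf d g).ev ((), p))).mulVecLin) = _ :=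
    (funext fun p => h1 ((), p)).trans h4.symm
  obtain ⟨P, hP⟩ := h6 ▸ h2
  have h7 := deg_le_of_split h5 P hτ (fun i => funext (h0 i)) hc hi hx hx'
  have h8 := P.rr fun i => le_trans (by norm_num) (hP i)
  have h9 : nsec T d g = Sec (vdz T.k (Tr.leaf d g) ()) _ :=
    congrArg (Sec (vdz T.k (Tr.leaf d g) ())) ((funext fun p => Nm_eq T _).trans h4.symm)
  rw [h9, h8]
  omega

/-- a derivation applied to the coefficients -/
def cf (D : Derivation ℂ E E) : Derivation ℂ E[X] E[X] :=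
  PolynomialModule.equivPolynomialSelf.compDer D.mapCoeffs

theorem coeff_cf (D : Derivation ℂ E E) (p : E[X]) (n : ℕ) : (cf D p).coeff n = D (p.coeff n) := rfl

/-- the tangent vectors: motion of the line, Euler vectors, the direction of the line -/
def tv {n : ℕ} (D : Fin n → Derivation ℂ E E) (g : (j : J) → io j → E[X]) :
    Fin n ⊕ J ⊕ Unit → Vr io → E[X]
  | .inl i, v => cf (D i) (g v.1 v.2)
  | .inr (.inl j), v => if v.1 = j then g v.1 v.2 else 0
  | .inr (.inr _), v => derivative (g v.1 v.2)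

/-- their twists -/
def tl (n : ℕ) (J : Type) : Fin n ⊕ J ⊕ Unit → ℤ
  | .inr (.inr _) => -1
  | _ => 0

/-- the relation at infinity -/
def tx (n : ℕ) (d : J → ℕ) (E : Type) [Field E] : Fin n ⊕ J ⊕ Unit → E
  | .inl _ => 0
  | .inr (.inl j) => -d j
  | .inr (.inr _) => 1

variable {n : ℕ} {D : Fin n → Derivation ℂ E E}

theorem sum_tl : ∑ i, tl n J i = -1 := by simp [Fintype.sum_sum_type, tl]

theorem tv_DL (h : ∀ j i, (g j i).natDegree ≤ d j) (i : Fin n ⊕ J ⊕ Unit) (v : Vr io) :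
    DL (tl n J i + d v.1) (tv D g i v) := by
  have h1 := DL_nat.2 (h v.1 v.2)
  rcases i with i | j | _
  · intro m hm
    rw [tv, coeff_cf, h1 m (by simpa [tl] using hm), map_zero]
  · simp only [tl, tv, zero_add]
    split_ifs
    exacts [h1, DL.zero _]
  · intro m hm
    rw [tv, coeff_derivative, h1 (m + 1) (by simp only [tl] at hm; omega), zero_mul]

theorem tv_kill {q : MvPolynomial (Vr io) ℂ} {κ : J → ℕ} (h : MH q κ) (h0 : pf g q = 0)
    (i : Fin n ⊕ J ⊕ Unit) : ∑ v, pf g (MvPolynomial.pderiv v q) * tv D g i v = 0 := by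
  unfold pf at h0
  rcases i with i | j | _
  · have h1 := Syz.der_aeval (cf (D i)) (fun v : Vr io => g v.1 v.2) q
    rw [h0, map_zero] at h1
    exact h1.symm
  · have h1 := Syz.euler (blk := Sigma.fst) h (fun v : Vr io => g v.1 v.2)
      fun j' => if j' = j then 1 else 0
    rw [h0, mul_zero] at h1
    simp only [ite_mul, one_mul, zero_mul] at h1
    exact h1
  · have h1 := Syz.der_aeval (derivative'.restrictScalars ℂ) (fun v : Vr io => g v.1 v.2) q
    rw [h0, map_zero] at h1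
    exact h1.symm

theorem tx_ne : tx n d E ≠ 0 := fun h => one_ne_zero (congrFun h (.inr (.inr ())))

theorem tv_inf (v : Vr io) : ∑ i, ev (tl n J i + d v.1) none (tv D g i v) * tx n d E i = 0 := by
  have h1 : ∀ (m : ℕ) (p : E[X]), ev (-1 + m) none (derivative p) = m * p.coeff m := by
    rintro (_ | m) p
    · rw [ev_none_neg (by norm_num), Nat.cast_zero, zero_mul]
    · rw [show (-1 + (m + 1 : ℕ) : ℤ) = m by omega, ev_none_nat, coeff_derivative, mul_comm,
        Nat.cast_succ]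
  simp only [Fintype.sum_sum_type, tl, tv, tx, mul_zero, Finset.sum_const_zero, zero_add,
    ev_none_nat, h1, Finset.univ_unique, Finset.sum_singleton, mul_one]
  rw [Finset.sum_eq_single v.1 (fun j _ hj => by simp [hj.symm]) (by simp)]
  simp [mul_comm]

theorem tv_li {ν : J → ℕ} (cp : Cp d g) {j₁ : J} (one : d j₁ = 1) (zero : ∀ j, ν j ≠ 0 → d j = 0)
    {x : Fin n → E} (hx : ∀ i, x i ∈ bas ν fun j i => (g j i).coeff 0)
    (hD : ∀ i i', D i (x i') = if i = i' then 1 else 0) : LinearIndependent E[X] (tv D g) := by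
  refine Fintype.linearIndependent_iff.2 fun a ha => ?_
  have h1 : ∀ j s, ∑ i, a (.inl i) * cf (D i) (g j s) + (a (.inr (.inl j)) * g j s +
      a (.inr (.inr ())) * derivative (g j s)) = 0 := fun j s => by
    simpa [Fintype.sum_sum_type, tv] using congrFun ha ⟨j, s⟩
  have h2 : ∀ i, a (.inl i) = 0 := fun i => by
    ext m
    let D' : Derivation ℂ E E := ∑ i, (a (.inl i)).coeff m • D i
    have h2 : ∀ y, D' y = ∑ i, (a (.inl i)).coeff m * D i y := fun y =>
      (congrFun (map_sum Derivation.coeFnAddMonoidHom (fun i => (a (.inl i)).coeff m • D i)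
        Finset.univ) y).trans (Finset.sum_apply _ _ _)
    have h3 : ∀ j s, ν j ≠ 0 →
        D' ((g j s).coeff 0) = -(a (.inr (.inl j))).coeff m * (g j s).coeff 0 := fun j s hj => by
      have h3 := eq_C_of_natDegree_le_zero (zero j hj ▸ cp.1 j s)
      have h4 : ∀ i, cf (D i) (g j s) = C (D i ((g j s).coeff 0)) := fun i => by
        ext n
        rw [coeff_cf, h3, coeff_C, coeff_C, coeff_C_zero, apply_ite (D i), map_zero]
      have h5 := congrArg (coeff · m) (h1 j s)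
      simp only [h4] at h5
      rw [h3] at h5
      simp only [derivative_C, mul_zero, add_zero, coeff_add, finsetSum_coeff, coeff_mul_C,
        coeff_C_zero, coeff_zero] at h5
      rw [h2, neg_mul, eq_neg_iff_add_eq_zero, h5]
    have h4 : ∀ y ∈ bas ν fun j i => (g j i).coeff 0, D' y = 0 := fun y hy => by
      induction hy using IntermediateField.adjoin_induction with
      | mem y hy =>
        obtain ⟨j, s, s', hj, rfl⟩ := hy
        rw [Derivation.leibniz_div, h3 j s hj, h3 j s' hj]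
        simp only [smul_eq_mul]
        ring
      | algebraMap y => exact D'.map_algebraMap y
      | add y z _ _ hy hz => rw [map_add, hy, hz, add_zero]
      | inv y _ hy => rw [Derivation.leibniz_inv, hy, smul_zero]
      | mul y z _ _ hy hz => rw [Derivation.leibniz, hy, hz, smul_zero, smul_zero, add_zero]
    simpa [h2, hD] using h4 _ (hx i)
  simp only [h2, zero_mul, Finset.sum_const_zero, zero_add] at h1
  have h3 : a (.inr (.inr ())) = 0 := by
    by_contra h3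
    obtain ⟨u, hu⟩ := Ideal.mem_span_range_iff_exists_fun.1
      ((Ideal.eq_top_iff_one _).1 (cp.2.2 j₁))
    obtain ⟨s, hs⟩ := cp.2.1 j₁
    have h4 : a (.inr (.inl j₁)) = -(a (.inr (.inr ())) * ∑ s, u s * derivative (g j₁ s)) := by
      rw [eq_neg_iff_add_eq_zero, ← mul_one (a (.inr (.inl j₁))), ← hu, Finset.mul_sum,
        Finset.mul_sum, ← Finset.sum_add_distrib]
      exact Finset.sum_eq_zero fun s _ => by linear_combination u s * h1 j₁ s
    have h5 : derivative (g j₁ s) = g j₁ s * ∑ s, u s * derivative (g j₁ s) :=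
      mul_left_cancel₀ h3 (by linear_combination h1 j₁ s - g j₁ s * h4)
    have h6 := le_natDegree_of_ne_zero hs
    have h7 : derivative (g j₁ s) ≠ 0 := fun h => hs (by
      simpa [coeff_derivative, one] using congrArg (coeff · 0) h)
    have h8 := natDegree_le_of_dvd ⟨_, h5⟩ h7
    have h9 := natDegree_derivative_lt (p := g j₁ s) (by omega)
    omega
  rintro (i | j | _)
  · exact h2 i
  · obtain ⟨s, hs⟩ := cp.2.1 j
    have h4 := h1 j s
    rw [h3, zero_mul, add_zero] at h4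
    exact (mul_eq_zero.1 h4).resolve_right fun h => hs (by rw [h, coeff_zero])
  · exact h3

theorem pf_map (β : K →ₐ[ℂ] E) (f : (j : J) → io j → K[X]) (q : MvPolynomial (Vr io) ℂ) :
    pf (fun j i => (f j i).map (β : K →+* E)) q = (pf f q).map (β : K →+* E) :=
  (MvPolynomial.comp_aeval_apply (fun v : Vr io => f v.1 v.2) (mapAlgHom β) q).symm

theorem exists_dual [Algebra.EssFiniteType ℂ K] {T : Tgt io A} {ν : J → ℕ} {j₁ : J}
    {f : (j : J) → io j → K[X]} (h : Line T d ν j₁ f) (β : K →ₐ[ℂ] E) :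
    ∃ D : Fin (∑ j, ν j) → Derivation ℂ E E,
      LinearIndependent E[X] (tv D fun j i => (f j i).map (β : K →+* E)) := by
  obtain ⟨ι, x, hx⟩ := exists_isTranscendenceBasis' ℂ K
  have h1 := hx.cardinalMk_eq_trdeg
  rw [trdeg_eq_dim, h.dm] at h1
  obtain ⟨e⟩ := Cardinal.mk_eq_nat_iff.1 h1
  have h2 := ((algebraicIndependent_equiv e.symm).2 hx.1).map' (f := β) β.injective
  choose D hD using fun i => R023.Ax952.exists_derivation h2 fun i' => if i = i' then 1 else 0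
  refine ⟨D, tv_li (h.cp.map _) h.one h.zero (fun i => ?_) hD⟩
  have h3 : (bas ν fun j i => (f j i).coeff 0).map β ≤
      bas ν fun j i => ((f j i).map (β : K →+* E)).coeff 0 := by
    rw [bas, IntermediateField.adjoin_map]
    refine IntermediateField.adjoin.mono _ _ _ ?_
    rintro _ ⟨_, ⟨j, s, s', hj, rfl⟩, rfl⟩
    exact ⟨j, s, s', hj, by simp⟩
  exact h3 ⟨_, h.gen ▸ trivial, rfl⟩

theorem card_vr (cp : Cp d g) : Fintype.card (Vr io) = adim io + Fintype.card J ∧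
    (mdim io d 3 : ℤ) = ∑ v : Vr io, (d v.1 : ℤ) + adim io := by
  have h1 : ∀ j, 1 ≤ Fintype.card (io j) := fun j => Fintype.card_pos_iff.2 (cp.2.1 j).nonempty
  constructor
  · rw [Fintype.card_sigma, adim, ← Finset.card_univ, Finset.card_eq_sum_ones,
      ← Finset.sum_add_distrib]
    exact Finset.sum_congr rfl fun j _ => (Nat.sub_add_cancel (h1 j)).symm
  · rw [mdim, Nat.add_sub_cancel, adim, Fintype.sum_sigma, Nat.cast_sum, Nat.cast_sum,
      ← Finset.sum_add_distrib]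
    refine Finset.sum_congr rfl fun j _ => ?_
    rw [mul_add, mul_one, Nat.add_sub_assoc (h1 j)]
    simp

/-- **RK, class `l`** -/
theorem rkL : RkLStmt := by
  intro J _ _ io _ _ A _ T c d ν j₁ K _ _ _ f hG hL hc E _ _ _ β
  obtain ⟨D, hD⟩ := exists_dual hL β
  have cp := hL.cp.map (β : K →+* E)
  have on : ∀ a, pf (fun j i => (f j i).map (β : K →+* E)) (T.F a) = 0 := fun a => by
    rw [pf_map, hL.on, Polynomial.map_zero]
  obtain ⟨h1, h2⟩ := card_vr cp
  have h3 := core hG cp on (tv_DL cp.1) (fun i a => tv_kill (T.hom a) (on a) i)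
    (by simp only [Fintype.card_sum, Fintype.card_fin, Fintype.card_unit]; omega) hD tx_ne tv_inf
  rw [sum_tl] at h3
  omega

theorem opt_li {κ : Type} [Fintype κ] {τ : κ → Vr io → E[X]} (hi : LinearIndependent E[X] τ)
    {δ w : Vr io → E[X]} (h0 : ∀ i, ∑ v, w v * τ i v = 0) (h1 : ∑ v, w v * δ v ≠ 0) :
    LinearIndependent E[X] fun i : Option κ => i.elim δ τ := by
  refine Fintype.linearIndependent_iff.2 fun a ha => ?_
  have h3 := congrArg (fun u => ∑ v, w v * u v) ha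
  simp only [Finset.sum_apply, Pi.smul_apply, smul_eq_mul, Finset.mul_sum, Pi.zero_apply,
    mul_zero, Finset.sum_const_zero, mul_left_comm _ (a _)] at h3
  rw [Finset.sum_comm] at h3
  simp only [← Finset.mul_sum, Fintype.sum_option, Option.elim_none, Option.elim_some,
    h0, mul_zero, Finset.sum_const_zero, add_zero] at h3
  have h4 := (mul_eq_zero.1 h3).resolve_right h1
  rw [Fintype.sum_option, h4, zero_smul, zero_add] at ha
  exact fun i => i.rec h4 (Fintype.linearIndependent_iff.1 hi _ ha)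

/-- **RK, class `e`** -/
theorem rkE : RkEStmt := by
  intro J _ _ io _ _ A _ T c d ν j₁ K _ _ _ f hG hL hc hT E _ _ _ β
  obtain ⟨D, hD⟩ := exists_dual hL β
  obtain ⟨δ, hδ, hδ0, q, κ, hq, hq0, hq1⟩ := hT
  have cp := hL.cp.map (β : K →+* E)
  have on : ∀ q, pf f q = 0 → pf (fun j i => (f j i).map (β : K →+* E)) q = 0 := fun q h => by
    rw [pf_map, h, Polynomial.map_zero]
  have hm : ∀ q, ∑ v, pf (fun j i => (f j i).map (β : K →+* E)) (MvPolynomial.pderiv v q) *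
      (δ v).map (β : K →+* E) = (∑ v, pf f (MvPolynomial.pderiv v q) * δ v).map (β : K →+* E) :=
    fun q => by simp only [pf_map, Polynomial.map_sum, Polynomial.map_mul]
  obtain ⟨h1, h2⟩ := card_vr cp
  have h3 := opt_li hD (tv_kill hq (on _ hq0)) (δ := fun v => (δ v).map (β : K →+* E)) (by
    rw [hm]
    exact (Polynomial.map_ne_zero_iff (β : K →+* E).injective).2 hq1)
  have h4 := core hG cp (fun a => on _ (hL.on a)) (l := fun i => i.elim 1 (tl _ J))
    (x := fun i => i.elim 0 (tx _ d E)) ?_ ?_ ?_ h3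
    (fun h => tx_ne (funext fun i => congrFun h (some i))) fun v => ?_
  · rw [Fintype.sum_option] at h4
    simp only [Option.elim_none, Option.elim_some, sum_tl] at h4
    omega
  · rintro (_ | i) v
    · simpa [add_comm] using DL_nat.2 (natDegree_map_le.trans (hδ v))
    · exact tv_DL cp.1 i v
  · rintro (_ | i) a
    · exact (hm _).trans (by rw [hδ0, Polynomial.map_zero])
    · exact tv_kill (T.hom a) (on _ (hL.on a)) i
  · simp only [Fintype.card_option, Fintype.card_sum, Fintype.card_fin, Fintype.card_unit]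
    omega
  · simpa only [Fintype.sum_option, Option.elim_none, Option.elim_some, mul_zero, zero_add] using
      tv_inf v

end Crest.Agent.X262.EndsRk
end
private theorem rz_5d9bab26f4 : type_of% @_root_.Crest.Agent.X262.EndsRk.tl.eq_1 := @_root_.Crest.Agent.X262.EndsRk.tl.eq_1 -- L93
private theorem rz_baaba0165a : type_of% @_root_.Crest.Agent.X262.EndsRk.tv.eq_1 := @_root_.Crest.Agent.X262.EndsRk.tv.eq_1 -- L86
private theorem rz_c86db775fc : type_of% @_root_.Crest.Agent.X262.EndsRk.tx.eq_1 := @_root_.Crest.Agent.X262.EndsRk.tx.eq_1 -- L98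
end

-- ▼ part X262/Noc95/Alg
section

/-!
# Row 262, (BL) (helper95): trees, homogenisation, rational curves through a generic point

* `conn`, `deg_zero` : connectedness of trees;
* `hmg`, `hv_aeval`  : homogenisation, forms along a rational curve;
* `exists_hom`       : two generic points of the same variety;
* `rc_const`         : a field with a pluricanonical form lies in the constants of `k(X)`.
-/

set_option autoImplicit false
set_option linter.style.haveILetI false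

open scoped KaehlerDifferential

noncomputable section

namespace Crest.Agent.X262.Noc95

open Crest.Agent.X277.Lef Polynomial
open Crest.Agent.X262.Bub96 Crest.Agent.X262.Bub96.Tr

section tree

variable {k : Type} [Field k] {J : Type} {io : J → Type}

theorem conn (Φ : ((j : J) → io j → k) → Prop) : (T : Tr k J io) → T.OK →
    (∀ a u u', Φ (T.ev (a, u)) → Φ (T.ev (a, u'))) → ∀ x x', Φ (T.ev x) → Φ (T.ev x')
  | leaf _ _, _, h, x, x' => h () x.2 x'.2
  | glue T p S, hT, h, x, x' => by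
    have h1 := conn Φ T hT.1 fun a => h (Sum.inl a)
    have h2 := conn Φ S hT.2.1 fun a => h (Sum.inr a)
    have e : S.ev (S.root, none) = T.ev (T.root, some p) :=
      funext fun j => funext fun i => hT.2.2.2 j i
    rcases x with ⟨a | a, u⟩ <;> rcases x' with ⟨a' | a', u'⟩
    · exact h1 (a, u) (a', u')
    · exact fun hx => h2 _ (a', u') (e ▸ h1 (a, u) _ hx)
    · exact fun hx => h1 _ (a', u') (e ▸ h2 (a, u) _ hx)
    · exact h2 (a, u) (a', u')

theorem hv_const {f : k[X]} (h : f.natDegree ≤ 0) (u : Option k) : hv 0 f u = f.coeff 0 := by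
  rcases u with _ | u
  · rfl
  · rw [hv_some, eq_C_of_natDegree_le_zero h, eval_C, coeff_C_zero]

theorem ev_const {T : Tr k J io} (hT : T.OK) {a : T.Vx} {j : J} (h : T.vd a j = 0) (u : Option k)
    (i : io j) : T.ev (a, u) j i = (T.vg a j i).coeff 0 := by
  rw [ev, h]
  exact hv_const (h ▸ hT.natDegree_le a j i) u

theorem deg_zero {T : Tr k J io} (hT : T.OK) {j : J} (Φ : (io j → k) → Prop)
    (h : ∀ a u, Φ (T.ev (a, u) j) → T.vd a j = 0) {x : T.Pt} (hx : Φ (T.ev x j)) : T.deg j = 0 := by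
  have h1 := fun x' => conn (fun y => Φ (y j)) T hT (fun a u u' h1 => by
    have h2 : T.ev (a, u') j = T.ev (a, u) j :=
      funext fun i => by rw [ev_const hT (h a u h1), ev_const hT (h a u h1)]
    exact h2 ▸ h1) x x' hx
  rw [← sum_vd]
  exact Finset.sum_eq_zero fun a _ => h a none (h1 _)

theorem zero_of_ne [IsAlgClosed k] {f : k[X]} {e : ℕ} (h1 : f.natDegree ≤ e)
    (h : ∀ u, hv e f u ≠ 0) : e = 0 := by
  by_contra h0
  have h2 : f.natDegree = e := le_antisymm h1 (le_natDegree_of_ne_zero (h none))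
  obtain ⟨x, hx⟩ := IsAlgClosed.exists_root f
    (natDegree_pos_iff_degree_pos.1 (h2 ▸ Nat.pos_of_ne_zero h0)).ne'
  exact h (some x) hx

end tree

section hom

variable {σ : Type}

theorem hmg {τ M : Type} [AddCommMonoid M] {w : τ → M} {δ : M} {f : σ → τ} (hf : ∀ j, w (f j) = δ)
    (i : σ) (q : MvPolynomial σ ℂ) : ∃ n₀, ∀ n, n₀ ≤ n → ∃ q' : MvPolynomial τ ℂ,
    q'.IsWeightedHomogeneous w (n • δ) ∧ ∀ (E : Type) [Field E] [Algebra ℂ E] (v : τ → E),
      v (f i) ≠ 0 → MvPolynomial.aeval v q' =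
        v (f i) ^ n * MvPolynomial.aeval (fun j => v (f j) / v (f i)) q := by
  have hX := fun j => hf j ▸ MvPolynomial.isWeightedHomogeneous_X ℂ w (f j)
  induction q using MvPolynomial.induction_on with
  | C c =>
    refine ⟨0, fun n _ => ⟨MvPolynomial.C c * MvPolynomial.X (f i) ^ n,
      ((hX i).pow n).C_mul c, fun E _ _ v _ => ?_⟩⟩
    simp [mul_comm]
  | add p q hp hq =>
    obtain ⟨n₁, h1⟩ := hp
    obtain ⟨n₂, h2⟩ := hq
    refine ⟨max n₁ n₂, fun n hn => ?_⟩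
    obtain ⟨p', h3, h4⟩ := h1 n (le_of_max_le_left hn)
    obtain ⟨q', h5, h6⟩ := h2 n (le_of_max_le_right hn)
    exact ⟨p' + q', h3.add h5, fun E _ _ v hv => by rw [map_add, map_add, h4 E v hv, h6 E v hv,
      mul_add]⟩
  | mul_X p j hp =>
    obtain ⟨n₁, h1⟩ := hp
    refine ⟨n₁ + 1, fun n hn => ?_⟩
    obtain ⟨n, rfl⟩ : ∃ m, n = m + 1 := ⟨n - 1, by omega⟩
    obtain ⟨p', h3, h4⟩ := h1 n (by omega)
    refine ⟨p' * MvPolynomial.X (f j), succ_nsmul δ n ▸ h3.mul (hX j), fun E _ _ v hv => ?_⟩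
    rw [map_mul, map_mul, h4 E v hv, MvPolynomial.aeval_X, MvPolynomial.aeval_X]
    field_simp
    ring

variable {k : Type} [Field k] [Algebra ℂ k]

omit [Algebra ℂ k] in
theorem hv_pow {e : ℕ} {f : k[X]} (hf : f.natDegree ≤ e) (m : ℕ) (u : Option k) :
    hv (m * e) (f ^ m) u = hv e f u ^ m := by
  rcases u with _ | u
  · exact coeff_pow_of_natDegree_le hf
  · exact eval_pow _

theorem hv_aeval {q : MvPolynomial σ ℂ} {n e : ℕ} (hq : q.IsHomogeneous n) {F : σ → k[X]}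
    (hF : ∀ i, (F i).natDegree ≤ e) (u : Option k) :
    (MvPolynomial.aeval F q).natDegree ≤ n * e ∧
      hv (n * e) (MvPolynomial.aeval F q) u = MvPolynomial.aeval (fun i => hv e (F i) u) q := by
  induction hq using MvPolynomial.IsWeightedHomogeneous.induction_on with
  | zero => simp [hv_zero]
  | add p q _ _ hp hq =>
    rw [map_add, map_add, hv_add, hp.2, hq.2]
    exact ⟨(natDegree_add_le _ _).trans (max_le hp.1 hq.1), rfl⟩
  | monomial d r hd =>
    classical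
    have key : ∀ s : Finset σ, (∏ i ∈ s, F i ^ d i).natDegree ≤ (∑ i ∈ s, d i) * e ∧
        hv ((∑ i ∈ s, d i) * e) (∏ i ∈ s, F i ^ d i) u = ∏ i ∈ s, hv e (F i) u ^ d i := fun s => by
      induction s using Finset.induction_on with
      | empty => rcases u with _ | u <;> simp
      | insert a s ha ih =>
        have h1 := natDegree_pow_le_of_le (d a) (hF a)
        rw [Finset.sum_insert ha, Finset.prod_insert ha, Finset.prod_insert ha, add_mul,
          hv_mul h1 ih.1, ih.2, hv_pow (hF a)]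
        exact ⟨natDegree_mul_le.trans (add_le_add h1 ih.1), rfl⟩
    have h1 : n = ∑ i ∈ d.support, d i := by simp [← hd, Finsupp.weight_apply, Finsupp.sum]
    rw [MvPolynomial.aeval_monomial, MvPolynomial.aeval_monomial, Polynomial.algebraMap_apply,
      hv_C_mul, h1]
    exact ⟨(natDegree_C_mul_le _ _).trans (key _).1, congrArg _ (key _).2⟩

theorem exists_hom {F E : Type} [Field F] [Algebra ℂ F] [Field E] [Algebra ℂ E] {z : σ → F}
    {w : σ → E} (hz : ∀ f : F, ∃ p q : MvPolynomial σ ℂ,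
      f = MvPolynomial.aeval z p / MvPolynomial.aeval z q)
    (h : ∀ q : MvPolynomial σ ℂ, MvPolynomial.aeval w q = 0 ↔ MvPolynomial.aeval z q = 0) :
    ∃ γ : F →ₐ[ℂ] E, ∀ j, γ (z j) = w j := by
  let B := (MvPolynomial.aeval (R := ℂ) z).range
  let g : B →ₐ[ℂ] E := AlgHom.liftOfSurjective (MvPolynomial.aeval z).rangeRestrict
    (AlgHom.rangeRestrict_surjective _) (MvPolynomial.aeval w) fun q hq =>
      (h q).2 (congrArg Subtype.val hq)
  have hg : ∀ q, g ((MvPolynomial.aeval z).rangeRestrict q) = MvPolynomial.aeval w q :=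
    fun q => AlgHom.liftOfSurjective_apply ..
  have hi : Function.Injective g := (injective_iff_map_eq_zero g).2 fun b hb => by
    obtain ⟨q, rfl⟩ := AlgHom.rangeRestrict_surjective _ b
    exact Subtype.ext ((h q).1 (hg q ▸ hb))
  haveI : IsFractionRing B F := IsFractionRing.of_field B F fun f => by
    obtain ⟨p, q, h⟩ := hz f
    exact ⟨⟨_, p, rfl⟩, ⟨_, q, rfl⟩, h⟩
  refine ⟨IsFractionRing.liftAlgHom hi, fun j => ?_⟩
  rw [← MvPolynomial.aeval_X (R := ℂ) w j, ← hg, ← MvPolynomial.aeval_X (R := ℂ) z j]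
  exact IsFractionRing.lift_algebraMap (K := F) hi ⟨_, _, rfl⟩

theorem rc_const {F : Type} [Field F] [Algebra ℂ F] (P : PModel ℂ F) {n : ℕ}
    (b : Module.Basis (Fin n) F Ω[F⁄ℂ]) {m : ℕ} (hm : 0 < m) {ω : F} (hω : ω ∈ P.H b m 0)
    (h0 : ω ≠ 0) (γ : F →ₐ[ℂ] RatFunc k) (x : F) : γ x ∈ (algebraMap k (RatFunc k)).range := by
  classical
  let ι : k[X] →ₐ[ℂ] RatFunc k := IsScalarTower.toAlgHom ℂ k[X] (RatFunc k)
  have hι : Function.Injective ι := IsFractionRing.injective k[X] (RatFunc k)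
  obtain ⟨D, hD⟩ := IsLocalization.exist_integer_multiples_of_finite (nonZeroDivisors k[X])
    fun j => γ (P.y j)
  choose f hf using hD
  replace hf : ∀ j, ι (f j) = ι D * γ (P.y j) := fun j => (hf j).trans (Algebra.smul_def _ _)
  have hD : ι D ≠ 0 := (map_ne_zero_iff _ hι).2 (nonZeroDivisors.ne_zero D.2)
  let L : IntermediateField ℂ k :=
    IntermediateField.adjoin ℂ (Finset.univ.biUnion fun j => (f j).coeffs : Finset k)
  haveI : Algebra.EssFiniteType ℂ L :=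
    IntermediateField.essFiniteType_iff.2 (IntermediateField.fg_adjoin_finset _)
  haveI : CharZero L := charZero_of_injective_algebraMap (algebraMap ℂ L).injective
  have h1 : ∀ j, ∃ g : L[X], mapAlgHom L.val g = f j := fun j =>
    (lifts_iff_coeffs_subset_range (f := algebraMap L k) (f j)).2 fun c hc =>
      ⟨⟨c, IntermediateField.subset_adjoin _ _
        (Finset.mem_biUnion.2 ⟨j, Finset.mem_univ _, hc⟩)⟩, rfl⟩
  choose g hg using h1
  have h2 : ∀ (q : MvPolynomial (Fin (P.N + 1)) ℂ) d, q.IsHomogeneous d →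
      (MvPolynomial.aeval g q = 0 ↔ MvPolynomial.aeval P.y q = 0) := fun q d hq => by
    rw [← map_eq_zero_iff (ι.comp (mapAlgHom L.val))
      (hι.comp (map_injective _ L.val.injective)), MvPolynomial.comp_aeval_apply]
    simp only [AlgHom.comp_apply, hg, hf]
    rw [Rc72.aeval_mul hq, ← MvPolynomial.comp_aeval_apply, mul_eq_zero,
      or_iff_right (pow_ne_zero _ hD), map_eq_zero]
  obtain ⟨c, G, hc⟩ := Rc72.exists_const_of_not_NC fun hn => by
    obtain ⟨q, d, h3, h4, h5⟩ := Rc72.exists_form P b hm hω h0 (fun q d h h' => (h2 q d h).2 h') hn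
    exact h4 ((h2 q d h3).1 h5)
  let S : Subalgebra ℂ (RatFunc k) := (IsScalarTower.toAlgHom ℂ k (RatFunc k)).range
  have h3 : ∀ j, ι D * γ (P.y j) = algebraMap k _ (c j : k) * ι (mapAlgHom L.val G) := fun j => by
    rw [← hf, ← hg, hc, map_mul, map_mul]
    simp [ι]
  have h4 : ∀ j, γ (P.y j / P.y 0) ∈ S := fun j => by
    have h5 : ι (mapAlgHom L.val G) ≠ 0 := right_ne_zero_of_mul
      (h3 0 ▸ mul_ne_zero hD ((map_ne_zero γ).2 (P.y_ne 0)))
    refine ⟨c j / c 0, ?_⟩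
    rw [map_div₀, map_div₀, ← mul_div_mul_left (γ _) _ hD, h3, h3, mul_div_mul_right _ _ h5]
    rfl
  obtain ⟨a, ha, c, hc, -, rfl⟩ := P.frac x
  obtain ⟨a', ha⟩ := Rc72.chart_le P γ S h4 ha
  obtain ⟨c', hc⟩ := Rc72.chart_le P γ S h4 hc
  exact ⟨a' / c', by rw [map_div₀, map_div₀, ← ha, ← hc]; rfl⟩

end hom

end Crest.Agent.X262.Noc95
end
end

-- ▼ part X262/Noc95/Main

/-!
# Row 262, (BL) (helper95): no curve through the generic point of the centre

* `rel`     : affine form of the equations of the tuples;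
* `vertex`  : a rational curve in a fibre through the generic point of `Z` is constant;
* `nocStmt`.
-/

set_option autoImplicit false
set_option linter.style.haveILetI false

open scoped KaehlerDifferential

noncomputable section

namespace Crest.Agent.X262.Noc95

open Crest.Agent.X277 Crest.Agent.X277.Lef Crest.Agent.X277.AN.G1 Crest.Agent.X277.BD
open Crest.Agent.X277.BD.Cyc (Rf plV lnr_plV)
open Crest.Agent.X277.Res.Out (Coords)
open Crest.Agent.X262.Coh Crest.Agent.X262.Gwb Crest.Agent.X262.Bl53 Crest.Agent.X262.Bub96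
open Crest.Agent.X262.Vb (Pnt MH pv)
open MvPolynomial (aeval X)

theorem eqv {F : Type} {t t' : Tup F} (h : t = t') : ∃ e : t'.io ≃ t.io, ∀ i, t.y (e i) = t'.y i :=
  h ▸ ⟨Equiv.refl _, fun _ => rfl⟩

variable {K F σ J : Type} [Field K] [Algebra ℂ K] [Field F] [Algebra ℂ F] [Fintype J]
  [DecidableEq J] {T : J → Tup K} {jH jG : J} {eH : σ ≃ (T jH).io} {eG : Fin 3 ≃ (T jG).io}
  {y : σ → K} {t : Fin 2 → K} {i₀ : σ}

/-- evaluation in the affine chart -/
abbrev af {E : Type} [Field E] [Algebra ℂ E] (i₀ : σ) (v : σ → E) : MvPolynomial σ ℂ →ₐ[ℂ] E :=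
  aeval fun j => v j / v i₀

omit [Fintype J] in
theorem rel (hH : ∀ i, (T jH).y (eH i) = y i) (hy : y i₀ ≠ 0) {E : Type} [Field E] [Algebra ℂ E]
    {v : Pnt (fun j => (T j).io) E} (hv : OnT T v) (h0 : v jH (eH i₀) ≠ 0)
    {P Q : MvPolynomial σ ℂ} {a b : (T jG).io}
    (h : (T jG).y a * af i₀ y Q = (T jG).y b * af i₀ y P) :
    v jG a * af i₀ (fun i => v jH (eH i)) Q = v jG b * af i₀ (fun i => v jH (eH i)) P := by
  have h1 := hmg (τ := Vb.Vr fun j => (T j).io) (w := fun v => (Pi.single v.1 1 : J → ℕ))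
    (δ := Pi.single jH 1) (f := fun i => ⟨jH, eH i⟩) (fun _ => rfl) i₀
  obtain ⟨n₁, h2⟩ := h1 P
  obtain ⟨n₂, h3⟩ := h1 Q
  obtain ⟨P', h4, h5⟩ := h2 _ (le_max_left n₁ n₂)
  obtain ⟨Q', h6, h7⟩ := h3 _ (le_max_right n₁ n₂)
  have h8 := hv (X ⟨jG, a⟩ * Q' - X ⟨jG, b⟩ * P') _
    (((MvPolynomial.isWeightedHomogeneous_X ℂ _ _).mul h6).sub
      ((MvPolynomial.isWeightedHomogeneous_X ℂ _ _).mul h4)) (by
    rw [pv, map_sub, map_mul, map_mul, h5 K _ (hH i₀ ▸ hy), h7 K _ (hH i₀ ▸ hy)]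
    simp only [MvPolynomial.aeval_X, hH]
    rw [mul_left_comm, h, mul_left_comm, sub_self])
  rw [pv, map_sub, map_mul, map_mul, h5 E _ h0, h7 E _ h0, mul_left_comm, mul_left_comm (aeval _ _),
    sub_eq_zero, mul_right_inj' (pow_ne_zero _ h0)] at h8
  simpa only [MvPolynomial.aeval_X] using h8

/-- `v` is a generic point of the closure of `z` -/
def Gn {E : Type} [Field E] [Algebra ℂ E] (i₀ : σ) (z : σ → F) (v : σ → E) : Prop :=
  v i₀ ≠ 0 ∧ ∀ q, af i₀ v q = 0 ↔ aeval z q = 0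

omit [Fintype J] in
theorem vertex (hH : ∀ i, (T jH).y (eH i) = y i) (hG : ∀ a, (T jG).y (eG a) = ![1, t 0, t 1] a)
    (hy : y i₀ ≠ 0) {p : Plc K F} (hp : ∀ j, y j / y i₀ ∈ p.O) (ht : Coords p.O t)
    (hl : ∀ f ∈ p.O, ∃ P Q, p.π (af i₀ y Q) ≠ 0 ∧ f * af i₀ y Q = af i₀ y P)
    (hz : ∀ g : F, ∃ a ∈ p.O, ∃ c ∈ p.O, g = p.π a / p.π c)
    {k : Type} [Field k] [Algebra ℂ k] [IsAlgClosed k]
    (hr : ∀ (γ : F →ₐ[ℂ] RatFunc k) x, γ x ∈ (algebraMap k (RatFunc k)).range)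
    {S : Tr k J fun j => (T j).io} (hS : S.OK) (hon : ∀ u, OnT T (S.ev u)) {a : S.Vx}
    (h0 : S.vd a jG = 0) {u : Option k}
    (hu : Gn i₀ (fun j => p.π (y j / y i₀)) fun i => S.ev (a, u) jH (eH i)) : S.vd a jH = 0 := by
  haveI : CharZero k := charZero_of_injective_algebraMap (algebraMap ℂ k).injective
  let ι : Polynomial k →ₐ[ℂ] RatFunc k := IsScalarTower.toAlgHom ℂ _ _
  have hι : Function.Injective ι := IsFractionRing.injective _ (RatFunc k)
  have hπ := fun q => (Plc.π_aeval hp q).2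
  have hO := fun q => (Plc.π_aeval hp q).1
  replace hu' : ∀ q, af i₀ (fun i => S.ev (a, u) jH (eH i)) q = 0 ↔ p.π (af i₀ y q) = 0 :=
    fun q => hπ q ▸ hu.2 q
  let v : Pnt (fun j => (T j).io) (RatFunc k) := fun j i => ι (S.vg a j i)
  have h1 : OnT T v := fun q κ h h' => by
    have : aeval (fun x : Vb.Vr fun j => (T j).io => S.vg a x.1 x.2) q = 0 :=
      Polynomial.funext fun x => by
        rw [Polynomial.eval_zero, ← hon (a, some x) q κ h h', ← Polynomial.coe_aeval_eq_eval]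
        exact (MvPolynomial.comp_aeval_apply _ ((Polynomial.aeval x).restrictScalars ℂ) q).trans
          (by simp [pv, Tr.ev])
    rw [pv, ← MvPolynomial.comp_aeval_apply, this, map_zero]
  have h2 : v jH (eH i₀) ≠ 0 := (map_ne_zero_iff _ hι).2 fun e => hu.1 (by
    show hv _ (S.vg a jH (eH i₀)) u = 0
    rw [e, hv_zero])
  have h3 : ∀ b, v jG b = algebraMap k _ (S.ev (a, u) jG b) := fun b => by
    rw [ev_const hS h0]
    exact congrArg ι (Polynomial.eq_C_of_natDegree_le_zero (h0 ▸ hS.natDegree_le a jG b))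
  have h4 : ∀ q, af i₀ (fun i => v jH (eH i)) q = 0 → p.π (af i₀ y q) = 0 := fun q hq => by
    obtain ⟨n, h⟩ := hmg (w := (1 : σ → ℕ)) (δ := 1) (f := id) (fun _ => rfl) i₀ q
    obtain ⟨q', h5, h6⟩ := h n le_rfl
    rw [smul_eq_mul, mul_one] at h5
    have h7 := h6 _ (fun i => v jH (eH i)) h2
    simp only [id] at h7 h6
    rw [hq, mul_zero, ← MvPolynomial.comp_aeval_apply, map_eq_zero_iff _ hι] at h7
    have h8 := (hv_aeval h5 (fun i => hS.natDegree_le a jH (eH i)) u).2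
    rw [h7, hv_zero] at h8
    exact (hu' q).1 ((mul_eq_zero.1 ((h6 _ _ hu.1).symm.trans h8.symm)).resolve_left
      (pow_ne_zero _ hu.1))
  choose P Q hQ hP using fun l => hl _ (ht.van l).1
  have h5 : ∀ l, (T jG).y (eG l.succ) * af i₀ y (Q l) = (T jG).y (eG 0) * af i₀ y (P l) :=
    fun l => by
      rw [hG, hG, ← hP]
      fin_cases l <;> simp
  have h6 : ∀ l : Fin 2, S.ev (a, u) jG (eG l.succ) = 0 := fun l => by
    have h7 := rel hH hy (hon (a, u)) hu.1 (h5 l)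
    have h8 : p.π (t l) = 0 := by_contra fun e =>
      (ht.van l).2 ⟨Plc.ne_zero_of_ne e, (ht.van l).1, p.inv_mem e⟩
    rw [(hu' (P l)).2 (by rw [← hP, p.π_mul (ht.van l).1 (hO _), h8, zero_mul]), mul_zero] at h7
    exact (mul_eq_zero.1 h7).resolve_right fun e => hQ l ((hu' _).1 e)
  have h7 : v jG (eG 0) ≠ 0 := by
    rw [h3, map_ne_zero]
    obtain ⟨b, hb⟩ := hS.ev_ne (a, u) jG
    obtain ⟨b, rfl⟩ := eG.surjective b
    exact Fin.cases id (fun l h => (h (h6 l)).elim) b hb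
  have h8 : ∀ l, af i₀ (fun i => v jH (eH i)) (P l) = 0 := fun l => by
    have h9 := rel hH hy h1 h2 (h5 l)
    rw [h3, h6, map_zero, zero_mul] at h9
    exact (mul_eq_zero.1 h9.symm).resolve_left h7
  have h9 : ∀ q, p.π (af i₀ y q) = 0 → af i₀ (fun i => v jH (eH i)) q = 0 := fun q hq => by
    obtain ⟨r, hr, e⟩ := ht.gen _ ⟨hO q, fun e => by
      have := p.π_mul e.2.1 e.2.2
      rw [mul_inv_cancel₀ e.1, hq, zero_mul, p.π_one] at this
      exact one_ne_zero this⟩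
    choose R U hU hR using fun l => hl _ (hr l)
    have e1 := rel (jG := jG) (a := eG 0) (b := eG 0) hH hy h1 h2
      (Q := q * (Q 0 * Q 1 * U 0 * U 1)) (P := R 0 * P 0 * Q 1 * U 1 + R 1 * P 1 * Q 0 * U 0) (by
        simp only [map_mul, map_add, ← hP, ← hR]
        rw [e, Fin.sum_univ_two]
        ring)
    simp only [map_mul, map_add, h8, mul_zero, zero_mul, add_zero, mul_eq_zero, h7, false_or] at e1
    exact e1.resolve_right fun e => e.elim (fun e => e.elim (fun e => e.elim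
      (fun e => hQ 0 (h4 _ e)) fun e => hQ 1 (h4 _ e)) fun e => hU 0 (h4 _ e))
      fun e => hU 1 (h4 _ e)
  obtain ⟨γ, hγ⟩ := exists_hom (z := fun j => p.π (y j / y i₀))
    (w := fun j => v jH (eH j) / v jH (eH i₀)) (fun g => by
      obtain ⟨b, hb, c, hc, rfl⟩ := hz g
      obtain ⟨P₁, Q₁, h1, h2⟩ := hl b hb
      obtain ⟨P₂, Q₂, h3, h4⟩ := hl c hc
      refine ⟨P₁ * Q₂, P₂ * Q₁, ?_⟩
      rw [map_mul, map_mul, ← hπ, ← hπ, ← hπ, ← hπ, ← h2, ← h4, p.π_mul hb (hO _),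
        p.π_mul hc (hO _)]
      field_simp) fun q => hπ q ▸ ⟨h4 q, h9 q⟩
  refine zero_of_ne (hS.natDegree_le a jH (eH i₀)) fun x hx => ?_
  obtain ⟨i, hi⟩ := hS.ev_ne (a, x) jH
  obtain ⟨i, rfl⟩ := eH.surjective i
  obtain ⟨c, hc⟩ := hr γ (p.π (y i / y i₀))
  rw [hγ, eq_div_iff h2] at hc
  have : S.vg a jH (eH i) = Polynomial.C c * S.vg a jH (eH i₀) :=
    hι (hc.symm.trans (map_mul ι _ _).symm)
  refine hi ?_
  show hv _ (S.vg a jH (eH i)) x = 0
  rw [this, hv_C_mul, hx, mul_zero]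

/-- specialisation of a vertex -/
theorem spec {L : Type} [Field L] [Algebra ℂ L] [IsAlgClosed L] {z : σ → F}
    {S : Tr L J fun j => (T j).io} (hS : S.OK) (hon : ∀ u, OnT T (S.ev u)) (a : S.Vx) {u : Option L}
    (h0 : S.ev (a, u) jH (eH i₀) ≠ 0)
    (h : ∀ q, af i₀ (fun i => S.ev (a, u) jH (eH i)) q = 0 → aeval z q = 0) :
    ∃ (k : Type) (_ : Field k) (_ : Algebra ℂ k) (_ : IsAlgClosed k)
      (S' : Tr k J fun j => (T j).io) (x : S'.Pt), S'.OK ∧ S'.deg = S.vd a ∧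
      (∀ u, OnT T (S'.ev u)) ∧ Gn i₀ z fun i => S'.ev x jH (eH i) := by
  haveI := RingHom.ker_isPrime (aeval (R := ℂ) z)
  obtain ⟨W, h1, h2⟩ := Ends.exists_centre (af i₀ fun i => S.ev (a, u) jH (eH i)).toRingHom
    (RingHom.ker (aeval (R := ℂ) z)) h
  let V : RZ ℂ L := ⟨W, fun c => by simpa using h1 (MvPolynomial.C c)⟩
  let R : Rd L (Rf V) := rd V
  haveI : IsAlgClosed (Rf V) := R.isAlgClosed
  obtain ⟨A⟩ := exists_red R (d := S.vd a) (F := S.vg a)
    ⟨hS.natDegree_le a, fun j x => hS.ev_ne (a, x) j⟩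
  have h3 : ∀ x j i, A.T.ev (A.sp x) j i = (plV V).r (A.nrm x j * S.ev (a, x) j i) :=
    fun x j i => (A.ev_sp x j i).symm
  have hm : ∀ x j i, A.nrm x j * S.ev (a, x) j i ∈ V.1 := A.nrm_mem
  have h4 : ∀ j, S.ev (a, u) jH (eH j) / S.ev (a, u) jH (eH i₀) ∈ V.1 := fun j => by
    simpa using h1 (X j)
  have h5 : ∀ i, A.T.ev (A.sp u) jH (eH i) = A.T.ev (A.sp u) jH (eH i₀) *
      (plV V).r (S.ev (a, u) jH (eH i) / S.ev (a, u) jH (eH i₀)) := fun i => by
    rw [h3, h3, ← Pl.r_mul (p := plV V) (hm u jH _) (h4 i), mul_assoc, mul_div_cancel₀ _ h0]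
  have h6 : A.T.ev (A.sp u) jH (eH i₀) ≠ 0 := fun e => by
    obtain ⟨i, hi⟩ := A.ok.ev_ne (A.sp u) jH
    obtain ⟨i, rfl⟩ := eH.surjective i
    exact hi (by rw [h5, e, zero_mul])
  refine ⟨Rf V, inferInstance, inferInstance, this, A.T, A.sp u, A.ok, A.deg,
    fun x q κ h7 h8 => ?_, h6, fun q => ?_⟩
  · obtain ⟨x', h9⟩ := A.surj x
    rw [pv, show (fun v : Vb.Vr fun j => (T j).io => A.T.ev x v.1 v.2) = _ from
      funext fun v => (h9.1 v.1 v.2).trans (h3 _ _ _),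
      ← (Geo.r_aeval (lnr_plV V) (fun v : Vb.Vr fun j => (T j).io => hm x' v.1 v.2) q).2,
      Node22.mh_aeval h7, ← pv, hon (a, x') q κ h7 h8, mul_zero, Pl.r_zero]
  · rw [af, show (fun j => A.T.ev (A.sp u) jH (eH j) / A.T.ev (A.sp u) jH (eH i₀)) = _ from
      funext fun j => by rw [h5 j, mul_div_cancel_left₀ _ h6],
      ← (Geo.r_aeval (lnr_plV V) h4 q).2, Pl.r_eq_zero (h1 q)]
    exact h2 q

theorem nocStmt : NocStmt := by
  rintro K _ _ U V h Z i t hi hl ht ⟨n, β, k, ω, hk, hω, h0⟩ m jH jG hH hG d dG dH Q μ ν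
    ⟨L, _, _, _, α, S, x, -, hS, rfl, hon, hx, -⟩ hr
  obtain ⟨eH, hH⟩ : ∃ e : Fin (V.N + 1) ≃ _, ∀ i, (m.T jH).y (e i) = V.y i := eqv hH
  obtain ⟨eG, hG⟩ : ∃ e : Fin 3 ≃ _, ∀ i, (m.T jG).y (e i) = ![1, t 0, t 1] i := eqv hG
  obtain ⟨ζ⟩ : Nonempty Z.Pt := inferInstance
  obtain ⟨i₀, hζ⟩ := exists_pat (P := V) (i.map ζ)
  have h1 : ∀ j, V.y j / V.y i₀ ∈ i.p.O := fun j => i.mem_O (y_mem hζ j)
  have h2 : ∀ f ∈ i.p.O, ∃ P Q, i.p.π (af i₀ V.y Q) ≠ 0 ∧ f * af i₀ V.y Q = af i₀ V.y P :=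
    fun f hf => by
      obtain ⟨c, h2, h3, h4⟩ := hl ζ f hf
      obtain ⟨a₁, ha₁, c₁, hc₁, h5, h6⟩ := (mem_lp_iff hζ).1 h2
      obtain ⟨a₂, ha₂, c₂, hc₂, h7, h8⟩ := (mem_lp_iff hζ).1 h4
      obtain ⟨P, hP⟩ := exists_poly (mul_mem ha₂ hc₁)
      obtain ⟨Q, hQ⟩ := exists_poly (mul_mem ha₁ hc₂)
      have h9 : ∀ {c}, c ∈ V.A i₀ → ev c (i.map ζ) ≠ 0 → i.p.π c ≠ 0 := fun hc e =>
        LP.ne_zero_of_ne (i.ev_map (A_le hζ hc) ▸ e)
      refine ⟨P, Q, ?_, by rw [af, hP, hQ, ← h6, ← h8]; ring⟩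
      rw [af, hQ, ← h6, i.p.π_mul (mul_mem (i.mem_O h2) (i.mem_O (A_le hζ hc₁)))
        (i.mem_O (A_le hζ hc₂)), i.p.π_mul (i.mem_O h2) (i.mem_O (A_le hζ hc₁))]
      exact mul_ne_zero (mul_ne_zero h3 (h9 hc₁ h5)) (h9 hc₂ h7)
  have h3 : ∀ g : Z.F, ∃ a ∈ i.p.O, ∃ c ∈ i.p.O, g = i.p.π a / i.p.π c := fun g => by
    obtain ⟨a, ha, c, hc, -, rfl⟩ := frac_lp ζ g
    obtain ⟨a', ha', rfl⟩ := hi.2 ζ a ha
    obtain ⟨c', hc', rfl⟩ := hi.2 ζ c hc
    exact ⟨a', i.mem_O ha', c', i.mem_O hc', rfl⟩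
  let ρ := Mor.comp (Chn.mor h) μ
  have h4 : ∀ f, ρ.p.π f = μ.p.π f := fun _ => rfl
  have h5 : ∀ j, V.y j / V.y i₀ ∈ μ.p.O := fun j => by
    obtain ⟨q, hq⟩ := hr ⟨ζ, rfl⟩
    exact (ρ.mem_O (y_mem (hq ▸ hζ) j)).2
  obtain ⟨u, c, h6, h7⟩ := hx jH
  have h8 : ∀ j, S.ev x jH (eH j) = S.ev x jH (eH i₀) * α (μ.p.π (V.y j / V.y i₀)) := fun j => by
    rw [h7, h7, mul_assoc, ← map_mul, ← μ.p.π_mul (h6 _) (h5 j), hH, hH]
    congr 3
    exact (by field_simp [V.y_ne i₀] : V.y j / u = V.y i₀ / u * (V.y j / V.y i₀))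
  have h9 : S.ev x jH (eH i₀) ≠ 0 := fun e => by
    obtain ⟨j, hj⟩ := hS.ev_ne x jH
    obtain ⟨j, rfl⟩ := eH.surjective j
    exact hj (by rw [h8, e, zero_mul])
  have h10 : ∀ q, af i₀ (fun j => S.ev x jH (eH j)) q = 0 →
      aeval (fun j => i.p.π (V.y j / V.y i₀)) q = 0 := fun q hq => by
    rw [af, show (fun j => S.ev x jH (eH j) / S.ev x jH (eH i₀)) = _ from
      funext fun j => by rw [h8 j, mul_div_cancel_left₀ _ h9], ← MvPolynomial.comp_aeval_apply,
      map_eq_zero, ← (Plc.π_aeval h5 q).2] at hq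
    rw [← (Plc.π_aeval h1 q).2]
    by_contra e
    obtain ⟨ζ', e1, e2⟩ := (dense_ne Z.P e).inter_open_nonempty _
      ((isOpen_pat V i₀).preimage i.continuous) ⟨ζ, hζ⟩
    obtain ⟨q', hq'⟩ := hr ⟨ζ', rfl⟩
    have e3 := A_le e1 (MvPolynomial.aeval (gen V i₀) q).2
    rw [aeval_gen] at e3
    refine e2 ?_
    rw [← i.ev_map e3, ← hq', ρ.ev_map (hq' ▸ e3), h4, hq]
    exact LP.v_zero _
  refine dH (deg_zero hS (fun v => v = S.ev x jH) (fun a u e => ?_) rfl)
  obtain ⟨k, _, _, _, S', x', hS', e1, hon', hx'⟩ :=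
    spec (eH := eH) hS hon a (e ▸ h9) (e ▸ h10)
  rw [← e1]
  refine deg_zero hS' (fun v => Gn i₀ _ fun j => v (eH j)) (fun a' u' => vertex hH hG (V.y_ne i₀)
    h1 ht h2 h3 (rc_const Z.P β hk hω h0) hS' hon' ?_) hx'
  exact Nat.le_zero.1 (dG ▸ (S'.vd_le_deg a' jG).trans (e1 ▸ S.vd_le_deg a jG))

end Crest.Agent.X262.Noc95
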